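import Vale.Agent.P058.Base

/-!
Invariance under the affine group of a prime field, and the pattern lemma.
-/

open scoped Classical

noncomputable section

namespace Vale.Agent.P058

section family

variable {K Γ : Type} [Group Γ]

/-- Formal products with at least one coordinate, constant on the placements of `c`. -/
def WFam (c : Fin 3 → Γ) (K : Type) : Set ((K → Γ) → Γ) :=
  {f | Wp f ∧ ∃ y, ∀ σ : Fin 3 → K, Function.Injective σ → f (place c σ) = y}

theorem WFam.closed (c : Fin 3 → Γ) : FamClosed (WFam c K) := by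
  refine ⟨?_, ?_, ?_⟩
  · rintro f ⟨hf, y, hy⟩ g ⟨hg, z, hz⟩
    exact ⟨hf.mul hg, y * z, fun σ hσ => by simp only [hy σ hσ, hz σ hσ]⟩
  · rintro c' f ⟨hf, y, hy⟩
    exact ⟨hf.const_mul c', c' * y, fun σ hσ => by simp only [hy σ hσ]⟩
  · rintro c' f ⟨hf, y, hy⟩
    exact ⟨hf.mul_const c', y * c', fun σ hσ => by simp only [hy σ hσ]⟩

theorem WFam.perm (c : Fin 3 → Γ) (g : K ≃ K) {f : (K → Γ) → Γ} (hf : f ∈ WFam c K) :
    (fun v => f (fun k => v (g k))) ∈ WFam c K := by
  obtain ⟨hw, y, hy⟩ := hf
  refine ⟨hw.perm g, y, fun σ hσ => ?_⟩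
  show f (fun k => place c σ (g k)) = y
  rw [place_comp c hσ g]
  exact hy _ (g.symm.injective.comp hσ)

theorem Good.wfam_nonempty [Nonempty K] (h : Good K) (c : Fin 3 → Γ) : ∃ f, f ∈ WFam c K := by
  obtain ⟨m, f, y, hm, hc, hy⟩ := h Γ c
  obtain ⟨i⟩ := ‹Nonempty K›
  exact ⟨f, ⟨fun _ => m, i, hm, hc⟩, y, hy⟩

end family

section affine

variable {p : ℕ} [Fact p.Prime] {Γ : Type} [Group Γ]

/-- Translation of a vector. -/
def shift (v : ZMod p → Γ) : ZMod p → Γ := fun j => v (j + 1)

theorem iter_shift (i : ℕ) (v : ZMod p → Γ) : shift^[i] v = fun j => v (j + (i : ZMod p)) := by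
  induction i generalizing v with
  | zero => funext j; simp
  | succ i ih =>
      rw [Function.iterate_succ_apply, ih]
      funext j
      show v (j + (i : ZMod p) + 1) = _
      push_cast
      rw [add_assoc]

/-- Dilation of a vector. -/
def scale (γ : ZMod p) (v : ZMod p → Γ) : ZMod p → Γ := fun j => v (γ * j)

theorem iter_scale (γ : ZMod p) (i : ℕ) (v : ZMod p → Γ) :
    (scale γ)^[i] v = fun j => v (γ ^ i * j) := by
  induction i generalizing v with
  | zero => funext j; simp
  | succ i ih =>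
      rw [Function.iterate_succ_apply, ih]
      funext j
      show v (γ * (γ ^ i * j)) = _
      rw [pow_succ', mul_assoc]

theorem exists_affine_inv (hG : Good (ZMod p)) (c : Fin 3 → Γ) (S : Set (ZMod p → Γ))
    (hS : S.Finite)
    (hcl : ∀ v ∈ S, ∀ α β : ZMod p, α ≠ 0 → (fun j => v (α * j + β)) ∈ S) :
    ∃ f ∈ WFam c (ZMod p), ∀ v ∈ S, ∀ α β : ZMod p, α ≠ 0 → f (fun j => v (α * j + β)) = f v := by
  have hp : 0 < p := (Fact.out : p.Prime).pos
  have : NeZero p := ⟨hp.ne'⟩
  obtain ⟨f0, hf0⟩ := hG.wfam_nonempty c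
  -- translations
  have hτ : ∀ f ∈ WFam c (ZMod p), (fun x => f (shift x)) ∈ WFam c (ZMod p) :=
    fun f hf => WFam.perm c (Equiv.addRight (1 : ZMod p)) hf
  have hper : ∀ v ∈ S, shift^[p] v = v := by
    intro v _
    rw [iter_shift]
    funext j
    simp
  obtain ⟨f1, hf1, hinv1⟩ := cyc_inv _ (WFam.closed c) shift hτ p hp S hS hper f0 hf0
  -- the smaller family
  let F2 : Set ((ZMod p → Γ) → Γ) :=
    {f | f ∈ WFam c (ZMod p) ∧ ∀ v ∈ S, ∀ i : ℕ, f (shift^[i] v) = f v}
  have hF2 : FamClosed F2 := by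
    obtain ⟨h1, h2, h3⟩ := WFam.closed (K := ZMod p) c
    refine ⟨?_, ?_, ?_⟩
    · rintro f ⟨hf, hf'⟩ g ⟨hg, hg'⟩
      exact ⟨h1 f hf g hg, fun v hv i => by simp only [hf' v hv i, hg' v hv i]⟩
    · rintro c' f ⟨hf, hf'⟩
      exact ⟨h2 c' f hf, fun v hv i => by simp only [hf' v hv i]⟩
    · rintro c' f ⟨hf, hf'⟩
      exact ⟨h3 c' f hf, fun v hv i => by simp only [hf' v hv i]⟩
  -- a generator of the units
  obtain ⟨γu, hγu⟩ := IsCyclic.exists_generator (α := (ZMod p)ˣ)
  let γ : ZMod p := γu
  have hγ0 : γ ≠ 0 := γu.ne_zero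
  have hμ : ∀ f ∈ F2, (fun x => f (scale γ x)) ∈ F2 := by
    rintro f ⟨hf, hf'⟩
    refine ⟨WFam.perm c (Equiv.mulLeft₀ γ hγ0) hf, ?_⟩
    intro v hv i
    show f (scale γ (shift^[i] v)) = f (scale γ v)
    have hsv : scale γ v ∈ S := by
      have := hcl v hv γ 0 hγ0
      have e : (fun j => v (γ * j + 0)) = scale γ v := by
        funext j
        simp [scale]
      rwa [e] at this
    have e : scale γ (shift^[i] v) = shift^[(γ⁻¹ * (i : ZMod p)).val] (scale γ v) := by
      rw [iter_shift, iter_shift]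
      funext j
      show v (γ * j + (i : ZMod p)) = v (γ * (j + (((γ⁻¹ * (i : ZMod p)).val : ℕ) : ZMod p)))
      rw [ZMod.natCast_zmod_val, mul_add, mul_inv_cancel_left₀ hγ0]
    rw [e]
    exact hf' _ hsv _
  have hper2 : ∀ v ∈ S, (scale γ)^[p - 1] v = v := by
    intro v _
    rw [iter_scale]
    funext j
    rw [ZMod.pow_card_sub_one_eq_one hγ0, one_mul]
  have hp1 : 0 < p - 1 := by
    have := (Fact.out : p.Prime).two_le
    omega
  obtain ⟨f2, hf2, hinv2⟩ := cyc_inv F2 hF2 (scale γ) hμ (p - 1) hp1 S hS hper2 f1 ⟨hf1, hinv1⟩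
  refine ⟨f2, hf2.1, ?_⟩
  intro v hv α β hα
  -- write `α` as a power of the generator
  have hαu : ∃ i : ℕ, γ ^ i = α := by
    have hm := hγu (Units.mk0 α hα)
    obtain ⟨i, hi⟩ := (mem_powers_iff_mem_zpowers).2 hm
    refine ⟨i, ?_⟩
    have := congrArg Units.val hi
    simpa using this
  obtain ⟨i, hi⟩ := hαu
  have hsv : shift^[β.val] v ∈ S := by
    rw [iter_shift]
    have := hcl v hv 1 β one_ne_zero
    simpa using this
  have e : (fun j => v (α * j + β)) = (scale γ)^[i] (shift^[β.val] v) := by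
    rw [iter_scale, iter_shift]
    funext j
    rw [hi, ZMod.natCast_zmod_val]
  rw [e, hinv2 _ hsv i, hf2.2 v hv]

/-- The vector of values of `b` on the fibres of a partial labelling of `Fin 3`. -/
def wvec (b : Finset (Fin 3) → Γ) (lam : Fin 3 → Option (ZMod p)) : ZMod p → Γ :=
  fun L => b (Finset.univ.filter (fun t => lam t = some L))

/-- Two partial labellings with the same pattern of coincidences. -/
def SameFib (lam lam' : Fin 3 → Option (ZMod p)) : Prop :=
  (∀ t u, lam t = lam u ↔ lam' t = lam' u) ∧ ∀ t, lam t = none ↔ lam' t = none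

theorem wvec_some (b : Finset (Fin 3) → Γ) (hb : b ∅ = 1) {σ : Fin 3 → ZMod p}
    (hσ : Function.Injective σ) :
    wvec b (fun t => some (σ t)) = place (fun t => b {t}) σ := by
  funext j
  by_cases h : ∃ t, σ t = j
  · obtain ⟨t, rfl⟩ := h
    rw [place_apply _ hσ]
    show b _ = b _
    congr 1
    ext u
    simp [hσ.eq_iff]
  · push Not at h
    rw [place_apply_of _ h]
    show b _ = 1
    have : (Finset.univ.filter (fun t => (some (σ t) : Option (ZMod p)) = some j)) = ∅ := by
      ext u
      simp [h u]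
    rw [this, hb]

theorem wvec_affine (b : Finset (Fin 3) → Γ) {lam lam' : Fin 3 → Option (ZMod p)}
    {α β : ZMod p} (hα : α ≠ 0)
    (h : ∀ t, lam t = (lam' t).map (fun x => α * x + β)) :
    (fun j => wvec b lam (α * j + β)) = wvec b lam' := by
  funext j
  show b _ = b _
  congr 1
  ext t
  simp only [Finset.mem_filter, Finset.mem_univ, true_and]
  rw [h t]
  cases hl : lam' t with
  | none => simp
  | some x =>
      simp only [Option.map_some, Option.some.injEq]
      constructor
      · intro e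
        have := mul_left_cancel₀ hα (add_right_cancel e)
        rw [this]
      · intro e
        rw [e]

theorem two_points (x1 x2 y1 y2 : ZMod p) (h : x1 = x2 ↔ y1 = y2) :
    ∃ α β : ZMod p, α ≠ 0 ∧ α * x1 + β = y1 ∧ α * x2 + β = y2 := by
  by_cases hx : x1 = x2
  · have hy := h.1 hx
    subst hx
    subst hy
    exact ⟨1, y1 - x1, one_ne_zero, by ring, by ring⟩
  · have hy : y1 ≠ y2 := fun e => hx (h.2 e)
    have hd : x1 - x2 ≠ 0 := sub_ne_zero.2 hx
    have hd' : y1 - y2 ≠ 0 := sub_ne_zero.2 hy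
    refine ⟨(y1 - y2) / (x1 - x2), y1 - (y1 - y2) / (x1 - x2) * x1, div_ne_zero hd' hd, by ring, ?_⟩
    field_simp
    ring

theorem exists_affine_of_samefib {lam lam' : Fin 3 → Option (ZMod p)} (h : SameFib lam lam')
    (hn : ¬ ∃ σ : Fin 3 → ZMod p, Function.Injective σ ∧ lam' = fun t => some (σ t)) :
    ∃ α β : ZMod p, α ≠ 0 ∧ ∀ t, lam t = (lam' t).map (fun x => α * x + β) := by
  obtain ⟨h1, h2⟩ := h
  -- at most two labels are used
  have htwo : ∃ t1 t2, ∀ t, lam' t = none ∨ lam' t = lam' t1 ∨ lam' t = lam' t2 := by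
    by_cases hall : ∀ t, lam' t ≠ none
    · by_cases hinj : ∀ t u, lam' t = lam' u → t = u
      · exfalso
        apply hn
        have : ∀ t, ∃ x, lam' t = some x := fun t => Option.ne_none_iff_exists'.1 (hall t)
        choose σ hσ using this
        refine ⟨σ, ?_, funext hσ⟩
        intro t u e
        apply hinj
        rw [hσ, hσ, e]
      · push Not at hinj
        obtain ⟨t, u, e, hne⟩ := hinj
        have key : ∀ t u : Fin 3, t ≠ u → ∃ w, ∀ t', t' = t ∨ t' = u ∨ t' = w := by decide
        obtain ⟨w, hw⟩ := key t u hne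
        refine ⟨t, w, fun t' => ?_⟩
        rcases hw t' with rfl | rfl | rfl
        · right; left; rfl
        · right; left; exact e.symm
        · right; right; rfl
    · push Not at hall
      obtain ⟨t0, ht0⟩ := hall
      have key : ∀ t0 : Fin 3, ∃ t1 t2, ∀ t', t' = t0 ∨ t' = t1 ∨ t' = t2 := by decide
      obtain ⟨t1, t2, hw⟩ := key t0
      refine ⟨t1, t2, fun t' => ?_⟩
      rcases hw t' with rfl | rfl | rfl
      · left; exact ht0
      · right; left; rfl
      · right; right; rfl
  obtain ⟨t1, t2, htw⟩ := htwo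
  have hsome : ∀ t x, lam' t = some x → ∃ y, lam t = some y := by
    intro t x hx
    apply Option.ne_none_iff_exists'.1
    intro e
    have := (h2 t).1 e
    rw [this] at hx
    cases hx
  have hdata : ∃ x1 x2 y1 y2 : ZMod p, (x1 = x2 ↔ y1 = y2) ∧ ∀ t,
      (lam' t = none ∧ lam t = none) ∨ (lam' t = some x1 ∧ lam t = some y1) ∨
        (lam' t = some x2 ∧ lam t = some y2) := by
    have hnone : ∀ t, lam' t = none → lam t = none := fun t ht => (h2 t).2 ht
    have htrans : ∀ t s, lam' t = lam' s → lam t = lam s := fun t s e => (h1 t s).2 e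
    cases e1 : lam' t1 with
    | none =>
        cases e2 : lam' t2 with
        | none =>
            refine ⟨0, 0, 0, 0, by simp, fun t => Or.inl ?_⟩
            have : lam' t = none := by
              rcases htw t with h | h | h
              · exact h
              · rw [h, e1]
              · rw [h, e2]
            exact ⟨this, hnone t this⟩
        | some x2 =>
            obtain ⟨y2, hy2⟩ := hsome t2 x2 e2
            refine ⟨x2, x2, y2, y2, by simp, fun t => ?_⟩
            rcases htw t with h | h | h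
            · exact Or.inl ⟨h, hnone t h⟩
            · rw [e1] at h
              exact Or.inl ⟨h, hnone t h⟩
            · refine Or.inr (Or.inl ⟨by rw [h, e2], ?_⟩)
              rw [htrans t t2 h, hy2]
    | some x1 =>
        obtain ⟨y1, hy1⟩ := hsome t1 x1 e1
        cases e2 : lam' t2 with
        | none =>
            refine ⟨x1, x1, y1, y1, by simp, fun t => ?_⟩
            rcases htw t with h | h | h
            · exact Or.inl ⟨h, hnone t h⟩
            · refine Or.inr (Or.inl ⟨by rw [h, e1], ?_⟩)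
              rw [htrans t t1 h, hy1]
            · rw [e2] at h
              exact Or.inl ⟨h, hnone t h⟩
        | some x2 =>
            obtain ⟨y2, hy2⟩ := hsome t2 x2 e2
            refine ⟨x1, x2, y1, y2, ?_, fun t => ?_⟩
            · have := h1 t1 t2
              rw [e1, e2, hy1, hy2] at this
              simpa using this.symm
            · rcases htw t with h | h | h
              · exact Or.inl ⟨h, hnone t h⟩
              · refine Or.inr (Or.inl ⟨by rw [h, e1], ?_⟩)
                rw [htrans t t1 h, hy1]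
              · refine Or.inr (Or.inr ⟨by rw [h, e2], ?_⟩)
                rw [htrans t t2 h, hy2]
  obtain ⟨x1, x2, y1, y2, hiff, hd⟩ := hdata
  obtain ⟨α, β, hα, e1, e2⟩ := two_points x1 x2 y1 y2 hiff
  refine ⟨α, β, hα, fun t => ?_⟩
  rcases hd t with ⟨a1, a2⟩ | ⟨a1, a2⟩ | ⟨a1, a2⟩
  · rw [a1, a2]; rfl
  · rw [a1, a2]; simp [e1]
  · rw [a1, a2]; simp [e2]

/-- The pattern lemma. -/
theorem lemmaQ (hG : Good (ZMod p)) (b : Finset (Fin 3) → Γ) (hb : b ∅ = 1) :
    ∃ f : (ZMod p → Γ) → Γ, Wp f ∧
      ∀ lam lam' : Fin 3 → Option (ZMod p), SameFib lam lam' → f (wvec b lam) = f (wvec b lam') := by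
  let S : Set (ZMod p → Γ) := Set.range (wvec b)
  have hS : S.Finite := Set.finite_range _
  have hcl : ∀ v ∈ S, ∀ α β : ZMod p, α ≠ 0 → (fun j => v (α * j + β)) ∈ S := by
    rintro _ ⟨lam, rfl⟩ α β hα
    refine ⟨fun t => (lam t).map (fun x => α⁻¹ * (x - β)), ?_⟩
    symm
    apply wvec_affine b hα
    intro t
    rw [Option.map_map]
    cases lam t with
    | none => rfl
    | some x =>
        simp only [Option.map_some, Function.comp_apply, Option.some.injEq]
        rw [mul_inv_cancel_left₀ hα]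
        ring
  obtain ⟨f, ⟨hfw, y, hy⟩, hinv⟩ := exists_affine_inv hG (fun t => b {t}) S hS hcl
  refine ⟨f, hfw, ?_⟩
  intro lam lam' h
  by_cases hn : ∃ σ : Fin 3 → ZMod p, Function.Injective σ ∧ lam' = fun t => some (σ t)
  · obtain ⟨σ, hσ, e⟩ := hn
    obtain ⟨h1, h2⟩ := h
    have hs : ∀ t, ∃ x, lam t = some x := by
      intro t
      apply Option.ne_none_iff_exists'.1
      intro e'
      have := (h2 t).1 e'
      rw [e] at this
      cases this
    choose σ' hσ' using hs
    have hinj : Function.Injective σ' := by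
      intro t u ht
      have := (h1 t u).1 (by rw [hσ', hσ', ht])
      rw [e] at this
      exact hσ (Option.some.inj this)
    have e' : lam = fun t => some (σ' t) := funext hσ'
    rw [e, e', wvec_some b hb hσ, wvec_some b hb hinj, hy _ hσ, hy _ hinj]
  · obtain ⟨α, β, hα, hab⟩ := exists_affine_of_samefib h hn
    rw [← wvec_affine b hα hab]
    exact (hinv _ ⟨lam, rfl⟩ α β hα).symm

end affine

end Vale.Agent.P058
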