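import Vale.Agent.P058.Cyc

/-!
Placements, the property `Good`, restriction along embeddings, and the symmetrisation lemma.
-/

open scoped Classical

noncomputable section

namespace Vale.Agent.P058

section place

variable {K K' Γ : Type} [Group Γ]

/-- The vector with entry `a t` at position `σ t` and entry `1` elsewhere. -/
def place (a : Fin 3 → Γ) (σ : Fin 3 → K) : K → Γ := Function.extend σ a 1

theorem place_apply (a : Fin 3 → Γ) {σ : Fin 3 → K} (hσ : Function.Injective σ) (t : Fin 3) :
    place a σ (σ t) = a t := hσ.extend_apply _ _ _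

theorem place_apply_of (a : Fin 3 → Γ) {σ : Fin 3 → K} {k : K} (h : ∀ t, σ t ≠ k) :
    place a σ k = 1 := Function.extend_apply' _ _ _ (by rintro ⟨t, ht⟩; exact h t ht)

theorem place_comp (a : Fin 3 → Γ) {σ : Fin 3 → K} (hσ : Function.Injective σ) (g : K ≃ K) :
    (fun k => place a σ (g k)) = place a (fun t => g.symm (σ t)) := by
  funext k
  have hσ' : Function.Injective (fun t => g.symm (σ t)) := g.symm.injective.comp hσ
  by_cases h : ∃ t, σ t = g k
  · obtain ⟨t, ht⟩ := h
    have e : k = g.symm (σ t) := by rw [ht]; simp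
    show place a σ (g k) = place a (fun t => g.symm (σ t)) k
    rw [← ht, place_apply a hσ, e, place_apply a hσ' t]
  · push Not at h
    show place a σ (g k) = place a (fun t => g.symm (σ t)) k
    rw [place_apply_of a h, place_apply_of]
    intro t e
    apply h t
    rw [← e]
    simp

theorem Clo.congr {n n' : K → ℕ} {f f' : (K → Γ) → Γ} (h : Clo n f) (e : ∀ i, n i = n' i)
    (e' : ∀ v, f v = f' v) : Clo n' f' := by
  have h1 : n = n' := funext e
  have h2 : f = f' := funext e'
  exact h1 ▸ h2 ▸ h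

theorem Wp.congr {f f' : (K → Γ) → Γ} (h : Wp f) (e' : ∀ v, f v = f' v) : Wp f' := by
  obtain ⟨n, i, hi, hc⟩ := h
  exact ⟨n, i, hi, hc.congr (fun _ => rfl) e'⟩

/-- Restriction to a subset of the coordinates, the others being set to `1`. -/
theorem Clo.restrict (e : K ↪ K') {n : K' → ℕ} {f : (K' → Γ) → Γ} (h : Clo n f) :
    Clo (fun i => n (e i)) (fun v => f (Function.extend e v 1)) := by
  induction h with
  | const c => exact Clo.const c
  | proj j =>
      by_cases hj : ∃ i, e i = j
      · obtain ⟨i, rfl⟩ := hj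
        refine (Clo.proj i).congr ?_ ?_
        · intro l
          simp [e.injective.eq_iff]
        · intro v
          exact (e.injective.extend_apply _ _ _).symm
      · refine (Clo.const (1 : Γ)).congr ?_ ?_
        · intro l
          have : e l ≠ j := fun h => hj ⟨l, h⟩
          simp [this]
        · intro v
          show (1 : Γ) = Function.extend e v 1 j
          rw [Function.extend_apply' _ _ _ hj]
          rfl
  | mul _ _ ih ih' => exact Clo.mul ih ih'

theorem place_restrict (e : K ↪ K') (a : Fin 3 → Γ) {σ : Fin 3 → K}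
    (hσ : Function.Injective σ) :
    Function.extend e (place a σ) 1 = place a (fun t => e (σ t)) := by
  have hσ' : Function.Injective (fun t => e (σ t)) := e.injective.comp hσ
  funext k
  by_cases h : ∃ i, e i = k
  · obtain ⟨i, rfl⟩ := h
    rw [e.injective.extend_apply]
    by_cases h' : ∃ t, σ t = i
    · obtain ⟨t, rfl⟩ := h'
      rw [place_apply a hσ, place_apply a hσ' t]
    · push Not at h'
      rw [place_apply_of a h', place_apply_of]
      intro t ht
      exact h' t (e.injective ht)
  · rw [Function.extend_apply' _ _ _ h, place_apply_of]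
    · rfl
    · intro t ht
      exact h ⟨_, ht⟩

end place

/-- `K` is good when, for all group elements `a 0, a 1, a 2`, a formal product in which all
coordinates occur equally often (and at least once) takes a single value on all placements. -/
def Good (K : Type) : Prop :=
  ∀ (Γ : Type) [Group Γ] (a : Fin 3 → Γ), ∃ (m : ℕ) (f : (K → Γ) → Γ) (y : Γ),
    0 < m ∧ Clo (fun _ => m) f ∧ ∀ σ : Fin 3 → K, Function.Injective σ → f (place a σ) = y

theorem Good.of_embedding {K K' : Type} (e : K ↪ K') (h : Good K') : Good K := by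
  intro Γ _ a
  obtain ⟨m, f, y, hm, hc, hy⟩ := h Γ a
  refine ⟨m, _, y, hm, hc.restrict e, ?_⟩
  intro σ hσ
  show f (Function.extend e (place a σ) 1) = y
  rw [place_restrict e a hσ]
  exact hy _ (e.injective.comp hσ)

theorem Good.of_card_le {K K' : Type} [Fintype K] [Fintype K']
    (hc : Fintype.card K ≤ Fintype.card K') (h : Good K') : Good K := by
  obtain ⟨e⟩ := Function.Embedding.nonempty_of_card_le hc
  exact h.of_embedding e

section finish

variable {K Γ : Type} [Group Γ] [Fintype K]

/-- The product over a list of permutations. -/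
def permProd (T : (K → Γ) → Γ) (w : Γ) (L : List (Equiv.Perm K)) (v : K → Γ) : Γ :=
  (L.map (fun g => T (fun k => v (g k)) * w)).prod

omit [Fintype K] in
theorem permProd_clo {T : (K → Γ) → Γ} {n : K → ℕ} (hT : Clo n T) (w : Γ)
    (L : List (Equiv.Perm K)) :
    Clo (fun i => (L.map (fun g : Equiv.Perm K => n (g.symm i))).sum) (permProd T w L) := by
  induction L with
  | nil =>
      refine (Clo.const (1 : Γ)).congr ?_ ?_
      · intro i; simp
      · intro v; simp [permProd]
  | cons g L ih =>
      refine (Clo.mul (Clo.mul (hT.perm g) (Clo.const w)) ih).congr ?_ ?_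
      · intro i; simp
      · intro v; simp [permProd, Function.comp_def]

theorem list_map_perm_sum (L : List (Equiv.Perm K))
    (hL : L.Nodup) (hL' : ∀ g, g ∈ L) (e : Equiv.Perm K ≃ Equiv.Perm K) (φ : Equiv.Perm K → ℕ) :
    (L.map (fun g => φ (e g))).sum = (L.map φ).sum := by
  have hp : (L.map e).Perm L := by
    apply List.perm_of_nodup_nodup_toFinset_eq ((List.nodup_map_iff e.injective).2 hL) hL
    ext g
    simp only [List.mem_toFinset, List.mem_map]
    exact ⟨fun _ => hL' g, fun _ => ⟨e.symm g, hL' _, by simp⟩⟩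
  have := (hp.map φ).sum_eq
  simpa [Function.comp_def] using this

theorem list_prod_pow {α : Type} (L : List α) (φ : α → Γ) (β : α → ℕ) (δ : Γ)
    (h : ∀ g ∈ L, φ g = δ ^ β g) : (L.map φ).prod = δ ^ (L.map β).sum := by
  induction L with
  | nil => simp
  | cons g L ih =>
      simp only [List.map_cons, List.prod_cons, List.sum_cons]
      rw [h g (List.mem_cons_self), ih (fun g' hg' => h g' (List.mem_cons_of_mem _ hg')), pow_add]

/-- A formal product with at most two values on the placements can be symmetrised to a formal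
product with equal site counts and a single value on the placements. -/
theorem finish {T : (K → Γ) → Γ} (hT : Wp T) (a : Fin 3 → Γ) (u u' : Γ)
    (h : ∀ σ : Fin 3 → K, Function.Injective σ → T (place a σ) = u ∨ T (place a σ) = u') :
    ∃ (m : ℕ) (f : (K → Γ) → Γ) (y : Γ),
      0 < m ∧ Clo (fun _ => m) f ∧ ∀ σ : Fin 3 → K, Function.Injective σ → f (place a σ) = y := by
  obtain ⟨n, i0, hi0, hc⟩ := hT
  let L : List (Equiv.Perm K) := (Finset.univ : Finset (Equiv.Perm K)).toList
  have hL : L.Nodup := Finset.nodup_toList _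
  have hL' : ∀ g, g ∈ L := fun g => Finset.mem_toList.2 (Finset.mem_univ g)
  have hdeg : ∀ i i', (L.map (fun g : Equiv.Perm K => n (g.symm i))).sum =
      (L.map (fun g : Equiv.Perm K => n (g.symm i'))).sum := by
    intro i i'
    have := list_map_perm_sum L hL hL' (Equiv.mulLeft (Equiv.swap i i'))
      (fun g : Equiv.Perm K => n (g.symm i))
    rw [← this]
    congr 1
    apply List.map_congr_left
    intro g _
    show n ((Equiv.swap i i' * g).symm i) = n (g.symm i')
    congr 1
    show g.symm ((Equiv.swap i i').symm i) = _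
    simp
  have hpos : 0 < (L.map (fun g : Equiv.Perm K => n (g.symm i0))).sum := by
    have hmem : n ((Equiv.refl K : Equiv.Perm K).symm i0) ∈
        L.map (fun g : Equiv.Perm K => n (g.symm i0)) :=
      List.mem_map.2 ⟨_, hL' _, rfl⟩
    exact lt_of_lt_of_le hi0 (List.single_le_sum (by simp) _ hmem)
  refine ⟨_, permProd T u⁻¹ L, ?_, hpos, (permProd_clo hc u⁻¹ L).congr (fun i => hdeg i i0)
    (fun _ => rfl), ?_⟩
  · by_cases hne : ∃ σ : Fin 3 → K, Function.Injective σ
    · exact permProd T u⁻¹ L (place a hne.choose)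
    · exact 1
  let β : (Fin 3 → K) → Equiv.Perm K → ℕ := fun σ g =>
    if T (place a (fun t => g.symm (σ t))) = u then 0 else 1
  have hval : ∀ σ : Fin 3 → K, Function.Injective σ →
      permProd T u⁻¹ L (place a σ) = (u' * u⁻¹) ^ (L.map (β σ)).sum := by
    intro σ hσ
    apply list_prod_pow
    intro g _
    show T (fun k => place a σ (g k)) * u⁻¹ = _
    rw [place_comp a hσ g]
    show _ = (u' * u⁻¹) ^ (if T (place a (fun t => g.symm (σ t))) = u then 0 else 1)
    by_cases h1 : T (place a (fun t => g.symm (σ t))) = u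
    · rw [if_pos h1, h1]; simp
    · rw [if_neg h1]
      have h2 : T (place a (fun t => g.symm (σ t))) = u ∨ T (place a (fun t => g.symm (σ t))) = u' :=
        h _ (g.symm.injective.comp hσ)
      rcases h2 with h2 | h2
      · exact absurd h2 h1
      · rw [h2]; simp
  have hsame : ∀ σ σ' : Fin 3 → K, Function.Injective σ → Function.Injective σ' →
      permProd T u⁻¹ L (place a σ) = permProd T u⁻¹ L (place a σ') := by
    intro σ σ' hσ hσ'
    obtain ⟨h', hh'⟩ := Equiv.Perm.exists_extending_pair σ σ' hσ hσ'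
    rw [hval σ hσ, hval σ' hσ']
    congr 1
    have := list_map_perm_sum L hL hL' (Equiv.mulLeft h'⁻¹) (β σ)
    rw [← this]
    congr 1
    apply List.map_congr_left
    intro g _
    show (if T (place a (fun t => (h'⁻¹ * g).symm (σ t))) = u then 0 else 1) =
      (if T (place a (fun t => g.symm (σ' t))) = u then 0 else 1)
    have e : (fun t => (h'⁻¹ * g).symm (σ t)) = (fun t => g.symm (σ' t)) := by
      funext t
      rw [← hh' t]
      show (h'⁻¹ * g)⁻¹ (σ t) = g⁻¹ (h' (σ t))
      simp [mul_inv_rev]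
    rw [e]
  intro σ hσ
  have hne : ∃ σ : Fin 3 → K, Function.Injective σ := ⟨σ, hσ⟩
  show permProd T u⁻¹ L (place a σ) = _
  rw [dif_pos hne]
  exact hsame _ _ hσ hne.choose_spec

end finish

/-- Three coordinates. -/
theorem good_fin3 : Good (Fin 3) := by
  intro Γ _ a
  let Fm : Set ((Fin 3 → Γ) → Γ) := {f | Wp f}
  have hcl : FamClosed Fm :=
    ⟨fun f hf g hg => Wp.mul hf hg, fun c f hf => Wp.const_mul c hf,
      fun c f hf => Wp.mul_const c hf⟩
  let r : Equiv.Perm (Fin 3) := Equiv.addRight 1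
  let τ : (Fin 3 → Γ) → (Fin 3 → Γ) := fun v k => v (r k)
  have hτ : ∀ f ∈ Fm, (fun x => f (τ x)) ∈ Fm := fun f hf => Wp.perm r hf
  let S : Set (Fin 3 → Γ) := Set.range (fun σ : Fin 3 → Fin 3 => place a σ)
  have hS : S.Finite := Set.finite_range _
  have hper : ∀ v ∈ S, τ^[3] v = v := by
    intro v _
    funext k
    show v (r (r (r k))) = v k
    congr 1
    show k + 1 + 1 + 1 = k
    revert k; decide
  obtain ⟨f, hf, hinv⟩ := cyc_inv Fm hcl τ hτ 3 (by norm_num) S hS hper (fun v => v 0)
    (Wp.of_proj 0)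
  have hstep : ∀ σ : Fin 3 → Fin 3, Function.Injective σ →
      f (place a (fun t => r.symm (σ t))) = f (place a σ) := by
    intro σ hσ
    rw [← place_comp a hσ r]
    exact hinv _ ⟨σ, rfl⟩ 1
  let s0 : Fin 3 → Fin 3 := fun t => t
  let s1 : Fin 3 → Fin 3 := fun t => Equiv.swap (0 : Fin 3) 1 t
  have key : ∀ x y z : Fin 3, x ≠ y → x ≠ z → y ≠ z →
      (x = 0 ∧ y = 1 ∧ z = 2) ∨ (x - 1 = 0 ∧ y - 1 = 1 ∧ z - 1 = 2) ∨
      (x - 1 - 1 = 0 ∧ y - 1 - 1 = 1 ∧ z - 1 - 1 = 2) ∨
      (x = 1 ∧ y = 0 ∧ z = 2) ∨ (x - 1 = 1 ∧ y - 1 = 0 ∧ z - 1 = 2) ∨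
      (x - 1 - 1 = 1 ∧ y - 1 - 1 = 0 ∧ z - 1 - 1 = 2) := by decide
  have hR : ∀ x : Fin 3, r.symm x = x - 1 := by
    intro x
    show x + -1 = x - 1
    rw [sub_eq_add_neg]
  have e0 : ∀ x y z : Fin 3, x = 0 → y = 1 → z = 2 → ∀ σ : Fin 3 → Fin 3,
      σ 0 = x → σ 1 = y → σ 2 = z → σ = s0 := by
    intro x y z hx hy hz σ h0 h1 h2
    funext t
    fin_cases t
    · exact h0.trans hx
    · exact h1.trans hy
    · exact h2.trans hz
  have e1 : ∀ x y z : Fin 3, x = 1 → y = 0 → z = 2 → ∀ σ : Fin 3 → Fin 3,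
      σ 0 = x → σ 1 = y → σ 2 = z → σ = s1 := by
    intro x y z hx hy hz σ h0 h1 h2
    funext t
    fin_cases t
    · exact h0.trans hx
    · exact h1.trans hy
    · exact h2.trans hz
  have h2val : ∀ σ : Fin 3 → Fin 3, Function.Injective σ →
      f (place a σ) = f (place a s0) ∨ f (place a σ) = f (place a s1) := by
    intro σ hσ
    have h01 : σ 0 ≠ σ 1 := fun e => by simpa using hσ e
    have h02 : σ 0 ≠ σ 2 := fun e => by simpa using hσ e
    have h12 : σ 1 ≠ σ 2 := fun e => by simpa using hσ e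
    have hσ1 : Function.Injective (fun t => r.symm (σ t)) := r.symm.injective.comp hσ
    have hσ2 : Function.Injective (fun t => r.symm (r.symm (σ t))) :=
      r.symm.injective.comp hσ1
    have st1 := hstep σ hσ
    have st2 := hstep _ hσ1
    rcases key _ _ _ h01 h02 h12 with ⟨a1, a2, a3⟩ | ⟨a1, a2, a3⟩ | ⟨a1, a2, a3⟩ |
        ⟨a1, a2, a3⟩ | ⟨a1, a2, a3⟩ | ⟨a1, a2, a3⟩
    · left
      rw [e0 _ _ _ a1 a2 a3 σ rfl rfl rfl]
    · left
      rw [← st1, e0 _ _ _ a1 a2 a3 (fun t => r.symm (σ t)) (hR _) (hR _) (hR _)]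
    · left
      rw [← st1, ← st2, e0 _ _ _ a1 a2 a3 (fun t => r.symm (r.symm (σ t)))
        (by rw [hR, hR]) (by rw [hR, hR]) (by rw [hR, hR])]
    · right
      rw [e1 _ _ _ a1 a2 a3 σ rfl rfl rfl]
    · right
      rw [← st1, e1 _ _ _ a1 a2 a3 (fun t => r.symm (σ t)) (hR _) (hR _) (hR _)]
    · right
      rw [← st1, ← st2, e1 _ _ _ a1 a2 a3 (fun t => r.symm (r.symm (σ t)))
        (by rw [hR, hR]) (by rw [hR, hR]) (by rw [hR, hR])]
  exact finish hf a _ _ h2val

end Vale.Agent.P058
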