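import Vale.Agent.P058.Words

/-!
The cyclic identity and invariance under a cyclic action.
-/

open scoped Classical

noncomputable section

namespace Vale.Agent.P058

variable {Γ : Type} [Group Γ]

/-- Ordered product `f 0 * f 1 * ... * f (n-1)`. -/
def ordProd (f : ℕ → Γ) : ℕ → Γ
  | 0 => 1
  | n + 1 => ordProd f n * f n

@[simp] theorem ordProd_zero (f : ℕ → Γ) : ordProd f 0 = 1 := rfl

theorem ordProd_succ (f : ℕ → Γ) (n : ℕ) : ordProd f (n + 1) = ordProd f n * f n := rfl

theorem ordProd_congr {f g : ℕ → Γ} {n : ℕ} (h : ∀ i, i < n → f i = g i) :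
    ordProd f n = ordProd g n := by
  induction n with
  | zero => rfl
  | succ n ih =>
      rw [ordProd_succ, ordProd_succ, ih (fun i hi => h i (by omega)), h n (by omega)]

theorem ordProd_add (f : ℕ → Γ) (a b : ℕ) :
    ordProd f (a + b) = ordProd f a * ordProd (fun i => f (a + i)) b := by
  induction b with
  | zero => simp
  | succ b ih =>
      rw [← add_assoc, ordProd_succ, ordProd_succ, ih, mul_assoc]

theorem ordProd_succ' (f : ℕ → Γ) (n : ℕ) :
    ordProd f (n + 1) = f 0 * ordProd (fun i => f (i + 1)) n := by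
  rw [add_comm, ordProd_add]
  have : ordProd (fun i => f (1 + i)) n = ordProd (fun i => f (i + 1)) n :=
    ordProd_congr (fun i _ => by rw [add_comm])
  rw [this]
  simp [ordProd_succ]

/-- Nested cancellation. -/
theorem palindrome : ∀ (m : ℕ) (u : ℕ → Γ),
    ordProd (fun j => u j * (u (m - j))⁻¹) (m + 1) = 1 := by
  intro m
  induction m using Nat.strong_induction_on with
  | _ m ih =>
    intro u
    match m, ih with
    | 0, _ => simp [ordProd_succ]
    | 1, _ => simp [ordProd_succ]
    | m + 2, ih =>
      rw [ordProd_succ, ordProd_succ']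
      have h := ih m (by omega) (fun j => u (j + 1))
      have e : ordProd (fun i => u (i + 1) * (u (m + 2 - (i + 1)))⁻¹) (m + 1) =
          ordProd (fun j => u (j + 1) * (u (m - j + 1))⁻¹) (m + 1) := by
        apply ordProd_congr
        intro i hi
        have : m + 2 - (i + 1) = m - i + 1 := by omega
        rw [this]
      rw [e, h]
      simp

/-- The spacers of the cyclic identity. -/
def cycS (x : ℕ → Γ) (n : ℕ) : ℕ → Γ
  | 0 => 1
  | i + 1 => x (n - 1 - i) * cycS x n i

theorem cycS_eq (x : ℕ → Γ) (n : ℕ) : ∀ k, k ≤ n →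
    cycS x n k = ordProd (fun i => x (n - k + i)) k := by
  intro k
  induction k with
  | zero => intro _; rfl
  | succ k ih =>
      intro hk
      have h1 := ih (by omega)
      show x (n - 1 - k) * cycS x n k = _
      rw [h1, ordProd_succ']
      have e1 : x (n - 1 - k) = x (n - (k + 1) + 0) := by
        congr 1; omega
      rw [e1]
      congr 1
      apply ordProd_congr
      intro i hi
      congr 1
      omega

theorem telescoped (x y : ℕ → Γ) (n k : ℕ) :
    ordProd (fun i => (cycS x n i)⁻¹ * y i * cycS x n i) (k + 1) =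
      ordProd (fun i => y i * (x (n - 1 - i))⁻¹) k * y k * cycS x n k := by
  induction k with
  | zero => simp [ordProd_succ, cycS]
  | succ k ih =>
      rw [ordProd_succ, ih, ordProd_succ (fun i => y i * (x (n - 1 - i))⁻¹) k]
      show _ * ((x (n - 1 - k) * cycS x n k)⁻¹ * y (k + 1) * cycS x n (k + 1)) = _
      group

/-- Key computation: `x h * x (n-1)⁻¹ * x (h+1) * x (n-2)⁻¹ * ... * x (h+n-1) = x 0`. -/
theorem cyc_core_lt (x : ℕ → Γ) (n : ℕ) (hn : 0 < n) (hper : ∀ i, x (i + n) = x i)
    (h : ℕ) (hh : h < n) :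
    ordProd (fun i => x (h + i) * (x (n - 1 - i))⁻¹) (n - 1) * x (h + (n - 1)) = x 0 := by
  obtain ⟨N, rfl⟩ : ∃ N, n = N + 1 := ⟨n - 1, by omega⟩
  simp only [Nat.add_sub_cancel]
  rcases Nat.eq_zero_or_pos h with rfl | hpos
  · have hp := palindrome N x
    rw [ordProd_succ] at hp
    have e : ordProd (fun i => x (0 + i) * (x (N - i))⁻¹) N =
        ordProd (fun j => x j * (x (N - j))⁻¹) N := by
      apply ordProd_congr
      intro i _
      simp
    rw [e]
    simp only [zero_add]
    simp only [Nat.sub_self] at hp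
    have := mul_eq_one_iff_eq_inv.mp hp
    rw [this]
    group
  · -- split at `m + 1`, where `h + m = N`
    obtain ⟨m, hm⟩ : ∃ m, h + m = N := ⟨N - h, by omega⟩
    obtain ⟨l, hl⟩ : ∃ l, h = l + 1 := ⟨h - 1, by omega⟩
    have hsplit : N = (m + 1) + l := by omega
    have e0 : ordProd (fun i => x (h + i) * (x (N - i))⁻¹) N =
        ordProd (fun i => x (h + i) * (x (N - i))⁻¹) ((m + 1) + l) := by rw [← hsplit]
    have first : ordProd (fun i => x (h + i) * (x (N - i))⁻¹) (m + 1) = 1 := by
      have hp := palindrome m (fun j => x (h + j))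
      have : ordProd (fun i => x (h + i) * (x (N - i))⁻¹) (m + 1) =
          ordProd (fun j => x (h + j) * (x (h + (m - j)))⁻¹) (m + 1) := by
        apply ordProd_congr
        intro i hi
        have : N - i = h + (m - i) := by omega
        rw [this]
      rw [this, hp]
    have second : ordProd (fun i => x (h + (m + 1 + i)) * (x (N - (m + 1 + i)))⁻¹) l =
        ordProd (fun j => x j * (x (l - j))⁻¹) l := by
      apply ordProd_congr
      intro i hi
      have h1 : h + (m + 1 + i) = i + (N + 1) := by omega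
      have h2 : N - (m + 1 + i) = l - i := by omega
      rw [h1, h2, hper]
    have last : x (h + N) = x l := by
      have : h + N = l + (N + 1) := by omega
      rw [this, hper]
    have hp := palindrome l x
    rw [ordProd_succ] at hp
    simp only [Nat.sub_self] at hp
    have := mul_eq_one_iff_eq_inv.mp hp
    rw [e0, ordProd_add, first, one_mul, second, this, last]
    group

theorem per_mod (x : ℕ → Γ) (n : ℕ) (hper : ∀ i, x (i + n) = x i) (i : ℕ) :
    ∀ k, x (i + k * n) = x i := by
  intro k
  induction k with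
  | zero => simp
  | succ k ih =>
      rw [Nat.succ_mul, ← add_assoc, hper, ih]

/-- The cyclic identity. -/
theorem cyc_identity (x : ℕ → Γ) (n : ℕ) (hn : 0 < n) (hper : ∀ i, x (i + n) = x i) (h : ℕ) :
    ordProd (fun i => (cycS x n i)⁻¹ * x (h + i) * cycS x n i) n = ordProd x n := by
  obtain ⟨N, rfl⟩ : ∃ N, n = N + 1 := ⟨n - 1, by omega⟩
  -- reduce `h` modulo `n`
  have hmod : ∀ i, x (h + i) = x (h % (N + 1) + i) := by
    intro i
    have e : h + i = (h % (N + 1) + i) + (h / (N + 1)) * (N + 1) := by
      have := Nat.mod_add_div' h (N + 1)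
      omega
    rw [e, per_mod x (N + 1) hper]
  have hlt : h % (N + 1) < N + 1 := Nat.mod_lt _ (by omega)
  rw [telescoped x (fun i => x (h + i)) (N + 1) N]
  have core := cyc_core_lt x (N + 1) (by omega) hper (h % (N + 1)) hlt
  simp only [Nat.add_sub_cancel] at core
  have e1 : ordProd (fun i => x (h + i) * (x (N + 1 - 1 - i))⁻¹) N =
      ordProd (fun i => x (h % (N + 1) + i) * (x (N - i))⁻¹) N := by
    apply ordProd_congr
    intro i _
    rw [hmod]
    simp
  rw [e1, hmod N, core, cycS_eq x (N + 1) N (by omega), ordProd_succ']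
  congr 1
  apply ordProd_congr
  intro i _
  congr 1
  omega

/-- Families of functions closed under products and multiplication by constants. -/
def FamClosed {A : Type} (S : Set (A → Γ)) : Prop :=
  (∀ f ∈ S, ∀ g ∈ S, (fun x => f x * g x) ∈ S) ∧
  (∀ c : Γ, ∀ f ∈ S, (fun x => c * f x) ∈ S) ∧
  (∀ c : Γ, ∀ f ∈ S, (fun x => f x * c) ∈ S)

theorem FamClosed.ordProd_mem {A : Type} {S : Set (A → Γ)} (hS : FamClosed S)
    (F : ℕ → A → Γ) (hF : ∀ i, F i ∈ S) (k : ℕ) :
    (fun v => ordProd (fun i => F i v) (k + 1)) ∈ S := by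
  induction k with
  | zero =>
      have := hS.2.1 1 (F 0) (hF 0)
      simpa [ordProd_succ] using this
  | succ k ih =>
      have := hS.1 _ ih _ (hF (k + 1))
      simpa [ordProd_succ] using this

/-- Invariance under a cyclic action on a finite set, inside a closed family. -/
theorem cyc_inv {A : Type} (F : Set (A → Γ)) (hF : FamClosed F) (τ : A → A)
    (hτ : ∀ f ∈ F, (fun x => f (τ x)) ∈ F) (n : ℕ) (hn : 0 < n)
    (S : Set A) (hS : S.Finite) (hper : ∀ v ∈ S, τ^[n] v = v) (f : A → Γ) (hf : f ∈ F) :
    ∃ f' ∈ F, ∀ v ∈ S, ∀ i, f' (τ^[i] v) = f' v := by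
  have hiter : ∀ g ∈ F, ∀ i : ℕ, (fun x => g (τ^[i] x)) ∈ F := by
    intro g hg i
    induction i with
    | zero => simpa using hg
    | succ i ih =>
        have := hτ _ ih
        simpa [Function.iterate_succ_apply] using this
  induction S, hS using Set.Finite.induction_on with
  | empty => exact ⟨f, hf, by simp⟩
  | @insert v0 T hv0 hT ih =>
      obtain ⟨g, hg, hgT⟩ := ih (fun v hv => hper v (Set.mem_insert_of_mem _ hv))
      let x : ℕ → Γ := fun i => g (τ^[i] v0)
      let G : ℕ → A → Γ := fun i v => (cycS x n i)⁻¹ * g (τ^[i] v) * cycS x n i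
      have hG : ∀ i, G i ∈ F := fun i =>
        hF.2.2 _ _ (hF.2.1 _ _ (hiter g hg i))
      obtain ⟨N, rfl⟩ : ∃ N, n = N + 1 := ⟨n - 1, by omega⟩
      refine ⟨_, hF.ordProd_mem G hG N, ?_⟩
      have hper0 : ∀ i, x (i + (N + 1)) = x i := by
        intro i
        show g (τ^[i + (N + 1)] v0) = g (τ^[i] v0)
        rw [Function.iterate_add_apply, hper v0 (Set.mem_insert _ _)]
      have horb : ∀ j, (ordProd (fun i => G i (τ^[j] v0)) (N + 1)) = ordProd x (N + 1) := by
        intro j
        rw [← cyc_identity x (N + 1) (by omega) hper0 j]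
        apply ordProd_congr
        intro i _
        show (cycS x (N + 1) i)⁻¹ * g (τ^[i] (τ^[j] v0)) * cycS x (N + 1) i =
          (cycS x (N + 1) i)⁻¹ * g (τ^[j + i] v0) * cycS x (N + 1) i
        rw [← Function.iterate_add_apply, Nat.add_comm i j]
      intro v hv j
      rcases hv with rfl | hv
      · have h0 := horb 0
        simp only [Function.iterate_zero, id] at h0
        show ordProd (fun i => G i (τ^[j] v)) (N + 1) = ordProd (fun i => G i v) (N + 1)
        rw [horb j]
        exact h0.symm
      · show ordProd (fun i => G i (τ^[j] v)) (N + 1) = ordProd (fun i => G i v) (N + 1)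
        apply ordProd_congr
        intro i _
        show (cycS x (N + 1) i)⁻¹ * g (τ^[i] (τ^[j] v)) * cycS x (N + 1) i =
          (cycS x (N + 1) i)⁻¹ * g (τ^[i] v) * cycS x (N + 1) i
        rw [← Function.iterate_add_apply, hgT v hv, hgT v hv]

end Vale.Agent.P058
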