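import Mathlib

/-!
Euclidean Ramsey sets, and the vectors with three prescribed entries and zeros elsewhere.
-/

namespace Vale.Agent.P058

/-- `A` is Ramsey: for every number `r ≥ 2` of colours there is a dimension `D ≥ 1` such that every
colouring of `ℝ^D` with `r` colours is constant on the image of `A` under some map which preserves
all distances between points of `A`. -/
def IsRamsey {k : ℕ} (A : Set (EuclideanSpace ℝ (Fin k))) : Prop :=
  ∀ r : ℕ, 2 ≤ r → ∃ D : ℕ, 1 ≤ D ∧ ∀ c : EuclideanSpace ℝ (Fin D) → Fin r,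
    ∃ f : EuclideanSpace ℝ (Fin k) → EuclideanSpace ℝ (Fin D),
      (∀ x ∈ A, ∀ y ∈ A, dist (f x) (f y) = dist x y) ∧ ∃ col : Fin r, ∀ x ∈ A, c (f x) = col

/-- All vectors of `ℝ^k` having the entries `a 0`, `a 1`, `a 2` in three distinct positions, and
the entry `0` in every other position. -/
def arrangements (k : ℕ) (a : Fin 3 → ℝ) : Set (EuclideanSpace ℝ (Fin k)) :=
  {x | ∃ σ : Fin 3 → Fin k, Function.Injective σ ∧ (∀ t, x (σ t) = a t) ∧
    ∀ i, (∀ t, σ t ≠ i) → x i = 0}

end Vale.Agent.P058
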