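import Vale.Agent.P058.Affine

/-!
The affine plane recursion: all finite index sets are good.
-/

open scoped Classical

noncomputable section

namespace Vale.Agent.P058

/-- Orbit step on a finite set of classes. -/
theorem exists_top {C Γ : Type} [Group Γ] [Fintype C] [Nonempty C] (hG : Good C)
    (α : Fin 3 → Γ) (ω : Γ) :
    ∃ f : (C → Γ) → Γ, Wp f ∧
      (∃ y, ∀ ρ : Fin 3 → C, Function.Injective ρ → f (place α ρ) = y) ∧
      ∃ z, ∀ c, f (fun c' => if c' = c then ω else 1) = z := by
  let n := Fintype.card C
  have hn : 0 < n := Fintype.card_pos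
  have : NeZero n := ⟨hn.ne'⟩
  let e : C ≃ ZMod n := Fintype.equivOfCardEq (by rw [ZMod.card])
  let g : Equiv.Perm C := e.trans ((Equiv.addRight (1 : ZMod n)).trans e.symm)
  let τ : (C → Γ) → (C → Γ) := fun v c => v (g c)
  have hτ : ∀ f ∈ WFam α C, (fun x => f (τ x)) ∈ WFam α C := fun f hf => WFam.perm α g hf
  have hiter : ∀ (i : ℕ) (v : C → Γ), τ^[i] v = fun c => v (e.symm (e c + (i : ZMod n))) := by
    intro i
    induction i with
    | zero =>
        intro v
        funext c
        simp
    | succ i ih =>
        intro v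
        rw [Function.iterate_succ_apply, ih]
        funext c
        show v (g (e.symm (e c + (i : ZMod n)))) = _
        congr 1
        show e.symm (e (e.symm (e c + (i : ZMod n))) + 1) = _
        rw [Equiv.apply_symm_apply]
        push_cast
        rw [add_assoc]
  let P : C → (C → Γ) := fun c c' => if c' = c then ω else 1
  have hper : ∀ v ∈ Set.range P, τ^[n] v = v := by
    intro v _
    rw [hiter]
    funext c
    simp
  obtain ⟨f0, hf0⟩ := hG.wfam_nonempty α
  obtain ⟨f, hf, hinv⟩ := cyc_inv _ (WFam.closed α) τ hτ n hn (Set.range P)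
    (Set.finite_range _) hper f0 hf0
  obtain ⟨c0⟩ := ‹Nonempty C›
  refine ⟨f, hf.1, hf.2, f (P c0), fun c => ?_⟩
  have e1 : P c = τ^[(e c0 - e c).val] (P c0) := by
    rw [hiter]
    funext c'
    show (if c' = c then ω else 1) = if e.symm (e c' + (((e c0 - e c).val : ℕ) : ZMod n)) = c0
      then ω else 1
    rw [ZMod.natCast_zmod_val]
    have : (e.symm (e c' + (e c0 - e c)) = c0) ↔ c' = c := by
      rw [Equiv.symm_apply_eq]
      constructor
      · intro h
        apply e.injective
        have : e c' - e c = 0 := by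
          have h' : e c' + (e c0 - e c) - e c0 = 0 := by rw [h]; ring
          rw [← h']; ring
        exact sub_eq_zero.1 this
      · rintro rfl
        ring
    simp only [this]
  show f (P c) = f (P c0)
  rw [e1]
  exact hinv _ ⟨c0, rfl⟩ _

/-- Factorisation through a key. -/
theorem exists_factor {X Y Z : Type} (d : Z) (φ : X → Z) (key : X → Y)
    (h : ∀ x x', key x = key x' → φ x = φ x') : ∃ I : Y → Z, ∀ x, φ x = I (key x) :=
  ⟨Function.extend key φ (fun _ => d), fun x => (Function.FactorsThrough.extend_apply h _ x).symm⟩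

section plane

variable {p : ℕ} [Fact p.Prime]

/-- The line through a point in a given parallel class. -/
def line : Option (ZMod p) → ZMod p × ZMod p → ZMod p
  | none, x => x.1
  | some m, x => x.2 - m * x.1

/-- The position of a point on its line in a given parallel class. -/
def coord : Option (ZMod p) → ZMod p × ZMod p → ZMod p
  | none, x => x.2
  | some _, x => x.1

/-- The point with a given line and position in a given parallel class. -/
def pt : Option (ZMod p) → ZMod p → ZMod p → ZMod p × ZMod p
  | none, L, j => (L, j)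
  | some m, L, j => (j, L + m * j)

theorem pt_eq_iff (c : Option (ZMod p)) (x : ZMod p × ZMod p) (L j : ZMod p) :
    x = pt c L j ↔ line c x = L ∧ coord c x = j := by
  obtain ⟨x1, x2⟩ := x
  cases c with
  | none => simp [pt, line, coord]
  | some m =>
      simp only [pt, line, coord, Prod.mk.injEq]
      constructor
      · rintro ⟨rfl, rfl⟩
        exact ⟨by ring, rfl⟩
      · rintro ⟨rfl, rfl⟩
        exact ⟨rfl, by ring⟩

theorem exists_class {x x' : ZMod p × ZMod p} (h : x ≠ x') : ∃ c, line c x = line c x' := by
  obtain ⟨x1, x2⟩ := x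
  obtain ⟨y1, y2⟩ := x'
  by_cases h1 : x1 = y1
  · exact ⟨none, h1⟩
  · have hd : x1 - y1 ≠ 0 := sub_ne_zero.2 h1
    refine ⟨some ((x2 - y2) / (x1 - y1)), ?_⟩
    show x2 - (x2 - y2) / (x1 - y1) * x1 = y2 - (x2 - y2) / (x1 - y1) * y1
    field_simp
    ring

theorem class_unique {x x' : ZMod p × ZMod p} (h : x ≠ x') {c c' : Option (ZMod p)}
    (hc : line c x = line c x') (hc' : line c' x = line c' x') : c = c' := by
  obtain ⟨x1, x2⟩ := x
  obtain ⟨y1, y2⟩ := x'
  have key : ∀ m : ZMod p, x1 = y1 → x2 - m * x1 = y2 - m * y1 → False := by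
    rintro m rfl e
    apply h
    have : x2 = y2 := by
      have := sub_left_injective e
      exact this
    rw [this]
  have key2 : ∀ m m' : ZMod p, x2 - m * x1 = y2 - m * y1 → x2 - m' * x1 = y2 - m' * y1 →
      m = m' := by
    intro m m' e e'
    by_cases h1 : x1 = y1
    · exact (key m h1 e).elim
    · have hd : x1 - y1 ≠ 0 := sub_ne_zero.2 h1
      have : (m - m') * (x1 - y1) = 0 := by
        have e2 : (x2 - m * x1) - (x2 - m' * x1) = (y2 - m * y1) - (y2 - m' * y1) := by rw [e, e']
        linear_combination -e2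
      have := (mul_eq_zero.1 this).resolve_right hd
      exact sub_eq_zero.1 this
  cases c with
  | none =>
      cases c' with
      | none => rfl
      | some m' => exact (key m' hc hc').elim
  | some m =>
      cases c' with
      | none => exact (key m hc' hc).elim
      | some m' => rw [key2 m m' hc hc']

/-- Partial labelling of `Fin 3` given by a line of a parallel class. -/
def lamOf (c : Option (ZMod p)) (L : ZMod p) (σ : Fin 3 → ZMod p × ZMod p) :
    Fin 3 → Option (ZMod p) :=
  fun t => if line c (σ t) = L then some (coord c (σ t)) else none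

theorem lamOf_eq_some {c : Option (ZMod p)} {L j : ZMod p} {σ : Fin 3 → ZMod p × ZMod p} {t : Fin 3} :
    lamOf c L σ t = some j ↔ σ t = pt c L j := by
  rw [pt_eq_iff]
  unfold lamOf
  by_cases h : line c (σ t) = L
  · simp [h]
  · simp [h]

theorem lamOf_eq_iff {c : Option (ZMod p)} {L : ZMod p} {σ : Fin 3 → ZMod p × ZMod p}
    (hσ : Function.Injective σ) (t u : Fin 3) :
    lamOf c L σ t = lamOf c L σ u ↔ t = u ∨ (line c (σ t) ≠ L ∧ line c (σ u) ≠ L) := by
  by_cases h1 : line c (σ t) = L <;> by_cases h2 : line c (σ u) = L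
  · have e1 : lamOf c L σ t = some (coord c (σ t)) := by simp [lamOf, h1]
    have e2 : lamOf c L σ u = some (coord c (σ u)) := by simp [lamOf, h2]
    rw [e1, e2]
    constructor
    · intro e
      left
      apply hσ
      have e3 := Option.some.inj e
      have a1 := (pt_eq_iff c (σ t) L (coord c (σ t))).2 ⟨h1, rfl⟩
      have a2 := (pt_eq_iff c (σ u) L (coord c (σ u))).2 ⟨h2, rfl⟩
      rw [a1, a2, e3]
    · rintro (rfl | ⟨h, _⟩)
      · rfl
      · exact absurd h1 h
  · have e1 : lamOf c L σ t = some (coord c (σ t)) := by simp [lamOf, h1]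
    have e2 : lamOf c L σ u = none := by simp [lamOf, h2]
    rw [e1, e2]
    constructor
    · intro e; cases e
    · rintro (rfl | ⟨h, _⟩)
      · exact absurd h1 h2
      · exact absurd h1 h
  · have e1 : lamOf c L σ t = none := by simp [lamOf, h1]
    have e2 : lamOf c L σ u = some (coord c (σ u)) := by simp [lamOf, h2]
    rw [e1, e2]
    constructor
    · intro e; cases e
    · rintro (rfl | ⟨_, h⟩)
      · exact absurd h2 h1
      · exact absurd h2 h
  · have e1 : lamOf c L σ t = none := by simp [lamOf, h1]
    have e2 : lamOf c L σ u = none := by simp [lamOf, h2]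
    rw [e1, e2]
    simp [h1, h2]

theorem lamOf_sameFib {c c' : Option (ZMod p)} {L L' : ZMod p} {σ σ' : Fin 3 → ZMod p × ZMod p}
    (hσ : Function.Injective σ) (hσ' : Function.Injective σ')
    (h : ∀ t, line c (σ t) = L ↔ line c' (σ' t) = L') :
    SameFib (lamOf c L σ) (lamOf c' L' σ') := by
  refine ⟨fun t u => ?_, fun t => ?_⟩
  · rw [lamOf_eq_iff hσ, lamOf_eq_iff hσ', Ne, Ne, Ne, Ne, h t, h u]
  · unfold lamOf
    by_cases h1 : line c (σ t) = L
    · have h2 := (h t).1 h1
      simp [h1, h2]
    · have h2 : ¬ line c' (σ' t) = L' := fun e => h1 ((h t).2 e)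
      simp [h1, h2]

variable {Γ : Type} [Group Γ]

/-- The values attached to the fibres of a placement on a line. -/
def binOf (a : Fin 3 → Γ) : Finset (Fin 3) → Γ :=
  Function.extend (fun t : Fin 3 => ({t} : Finset (Fin 3))) a 1

theorem binOf_singleton (a : Fin 3 → Γ) (t : Fin 3) : binOf a {t} = a t :=
  Function.Injective.extend_apply Finset.singleton_injective _ _ _

theorem binOf_empty (a : Fin 3 → Γ) : binOf a ∅ = 1 := by
  apply Function.extend_apply'
  rintro ⟨t, ht⟩
  exact Finset.singleton_ne_empty t ht

theorem res_eq_wvec (a : Fin 3 → Γ) {σ : Fin 3 → ZMod p × ZMod p} (hσ : Function.Injective σ)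
    (c : Option (ZMod p)) (L : ZMod p) :
    (fun j => place a σ (pt c L j)) = wvec (binOf a) (lamOf c L σ) := by
  funext j
  show _ = binOf a _
  by_cases h : ∃ t0, σ t0 = pt c L j
  · obtain ⟨t0, ht0⟩ := h
    rw [← ht0, place_apply a hσ]
    have : (Finset.univ.filter (fun t => lamOf c L σ t = some j)) = {t0} := by
      ext t
      simp only [Finset.mem_filter, Finset.mem_univ, true_and, Finset.mem_singleton]
      rw [lamOf_eq_some, ← ht0]
      exact hσ.eq_iff
    rw [this, binOf_singleton]
  · push Not at h
    rw [place_apply_of a h]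
    have : (Finset.univ.filter (fun t => lamOf c L σ t = some j)) = ∅ := by
      ext t
      simp only [Finset.mem_filter, Finset.mem_univ, true_and, Finset.notMem_empty, iff_false]
      rw [lamOf_eq_some]
      exact h t
    rw [this, binOf_empty]

/-- The main recursion. -/
theorem step (h1 : Good (ZMod p)) (h2 : Good (Option (ZMod p))) :
    Good (ZMod p × ZMod p) := by
  intro Γ _ a
  -- inner function on the lines
  obtain ⟨Inn, hInnW, hInn⟩ := lemmaQ h1 (binOf a) (binOf_empty a)
  -- its values depend only on which of the three points are on the line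
  obtain ⟨I, hI⟩ := exists_factor (1 : Γ)
    (fun x : Option (ZMod p) × ZMod p × {σ : Fin 3 → ZMod p × ZMod p // Function.Injective σ} =>
      Inn (fun j => place a x.2.2.1 (pt x.1 x.2.1 j)))
    (fun x => Finset.univ.filter (fun t => line x.1 (x.2.2.1 t) = x.2.1))
    (by
      rintro ⟨c, L, σ, hσ⟩ ⟨c', L', σ', hσ'⟩ e
      simp only at e ⊢
      rw [res_eq_wvec a hσ, res_eq_wvec a hσ']
      apply hInn
      apply lamOf_sameFib hσ hσ'
      intro t
      have := Finset.ext_iff.1 e t
      simpa using this)
  have hI' : ∀ (c : Option (ZMod p)) (L : ZMod p) (σ : Fin 3 → ZMod p × ZMod p),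
      Function.Injective σ → Inn (fun j => place a σ (pt c L j)) =
        I (Finset.univ.filter (fun t => line c (σ t) = L)) :=
    fun c L σ hσ => hI (c, L, ⟨σ, hσ⟩)
  -- block function on the parallel classes
  let bbl : Finset (Fin 3) → Γ := fun A => I A * (I ∅)⁻¹
  obtain ⟨Bl, hBlW, hBl⟩ := lemmaQ h1 bbl (by simp [bbl])
  obtain ⟨J, hJ⟩ := exists_factor (1 : Γ)
    (fun x : Option (ZMod p) × (Fin 3 → ZMod p × ZMod p) =>
      Bl (wvec bbl (fun t => some (line x.1 (x.2 t)))))
    (fun x => fun t u => line x.1 (x.2 t) = line x.1 (x.2 u))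
    (by
      rintro ⟨c, σ⟩ ⟨c', σ'⟩ e
      simp only at e ⊢
      apply hBl
      refine ⟨fun t u => ?_, fun t => by simp⟩
      have := congrFun (congrFun e t) u
      simp only [Option.some.injEq]
      exact this.to_iff)
  have hJ' : ∀ (c : Option (ZMod p)) (σ : Fin 3 → ZMod p × ZMod p),
      Bl (wvec bbl (fun t => some (line c (σ t)))) =
        J (fun t u => line c (σ t) = line c (σ u)) :=
    fun c σ => hJ (c, σ)
  let H0 : Γ := J (fun t u => t = u)
  let α : Fin 3 → Γ := fun w => J (fun t u => t = u ∨ (t ≠ w ∧ u ≠ w)) * H0⁻¹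
  let ω : Γ := J (fun _ _ => True) * H0⁻¹
  obtain ⟨Tw, hTwW, ⟨y, hy⟩, z, hz⟩ := exists_top h2 α ω
  let n : Option (ZMod p) → (ZMod p × ZMod p → Γ) → Γ := fun c v =>
    Bl (fun L => Inn (fun j => v (pt c L j)) * (I ∅)⁻¹) * H0⁻¹
  have hnW : ∀ c, Wp (n c) := by
    intro c
    apply Wp.mul_const
    apply Wp.subst (f := Bl) (u := fun L v => Inn (fun j => v (pt c L j)) * (I ∅)⁻¹) _ hBlW
    intro L
    apply Wp.mul_const
    exact Wp.subst (f := Inn) (u := fun j v => v (pt c L j)) (fun j => Wp.of_proj _) hInnW
  have hTW : Wp (fun v => Tw (fun c => n c v)) := Wp.subst hnW hTwW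
  have hnval : ∀ (c : Option (ZMod p)) (σ : Fin 3 → ZMod p × ZMod p), Function.Injective σ →
      n c (place a σ) = J (fun t u => line c (σ t) = line c (σ u)) * H0⁻¹ := by
    intro c σ hσ
    show Bl (fun L => Inn (fun j => place a σ (pt c L j)) * (I ∅)⁻¹) * H0⁻¹ = _
    rw [← hJ' c σ]
    congr 2
    funext L
    rw [hI' c L σ hσ]
    show _ = bbl _
    show _ = I _ * (I ∅)⁻¹
    congr 2
    ext t
    simp
  have hdisc : ∀ (c : Option (ZMod p)) (σ : Fin 3 → ZMod p × ZMod p), Function.Injective σ →
      (∀ t u, line c (σ t) = line c (σ u) → t = u) → n c (place a σ) = 1 := by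
    intro c σ hσ h
    rw [hnval c σ hσ]
    have : (fun t u => line c (σ t) = line c (σ u)) = (fun t u : Fin 3 => t = u) := by
      funext t u
      apply propext
      constructor
      · exact h t u
      · rintro rfl; rfl
    rw [this]
    simp [H0]
  refine finish hTW a y z ?_
  intro σ hσ
  by_cases hcol : ∃ c0, ∀ t u, line c0 (σ t) = line c0 (σ u)
  · -- collinear
    right
    obtain ⟨c0, hc0⟩ := hcol
    rw [← hz c0]
    show Tw (fun c => n c (place a σ)) = _
    congr 1
    funext c
    by_cases hc : c = c0
    · subst hc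
      rw [if_pos rfl, hnval c σ hσ]
      have : (fun t u => line c (σ t) = line c (σ u)) = (fun _ _ : Fin 3 => True) := by
        funext t u
        exact propext (iff_true_intro (hc0 t u))
      rw [this]
    · rw [if_neg hc]
      apply hdisc c σ hσ
      intro t u e
      by_contra hne
      exact hc (class_unique (fun e' => hne (hσ e')) e (hc0 t u))
  · -- not collinear
    left
    push Not at hcol
    have hex : ∀ w : Fin 3, ∃ c, line c (σ (w + 1)) = line c (σ (w + 2)) := by
      intro w
      apply exists_class
      intro e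
      have hne : ∀ w : Fin 3, w + 1 ≠ w + 2 := by decide
      exact hne w (hσ e)
    choose ρ hρ using hex
    have hρline : ∀ w t u, line (ρ w) (σ t) = line (ρ w) (σ u) ↔ t = u ∨ (t ≠ w ∧ u ≠ w) := by
      intro w t u
      constructor
      · intro e
        by_cases htu : t = u
        · exact Or.inl htu
        · right
          -- otherwise the three points are on one line
          by_contra hcon
          have hw : (t = w ∧ u ≠ w) ∨ (u = w ∧ t ≠ w) := by
            by_cases h1 : t = w
            · exact Or.inl ⟨h1, fun h2 => htu (h1.trans h2.symm)⟩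
            · right
              refine ⟨?_, h1⟩
              by_contra h2
              exact hcon ⟨h1, h2⟩
          have hall : ∀ x, line (ρ w) (σ x) = line (ρ w) (σ (w + 1)) := by
            have hcases : ∀ w x : Fin 3, x = w ∨ x = w + 1 ∨ x = w + 2 := by decide
            have hother : ∀ w x : Fin 3, x ≠ w → x = w + 1 ∨ x = w + 2 := by decide
            have h0 : line (ρ w) (σ w) = line (ρ w) (σ (w + 1)) := by
              rcases hw with ⟨rfl, hu⟩ | ⟨rfl, ht⟩
              · rcases hother t u hu with rfl | rfl
                · exact e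
                · rw [e, ← hρ]
              · rcases hother u t ht with rfl | rfl
                · exact e.symm
                · rw [← e, ← hρ]
            intro x
            rcases hcases w x with rfl | rfl | rfl
            · exact h0
            · rfl
            · exact (hρ w).symm
          obtain ⟨t', u', hne⟩ := hcol (ρ w)
          exact hne ((hall t').trans (hall u').symm)
      · rintro (rfl | ⟨h1, h2⟩)
        · rfl
        · by_cases htu : t = u
          · rw [htu]
          · have hother : ∀ w t u : Fin 3, t ≠ w → u ≠ w → t ≠ u →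
                (t = w + 1 ∧ u = w + 2) ∨ (t = w + 2 ∧ u = w + 1) := by decide
            rcases hother w t u h1 h2 htu with ⟨rfl, rfl⟩ | ⟨rfl, rfl⟩
            · exact hρ w
            · exact (hρ w).symm
    have hρinj : Function.Injective ρ := by
      intro w w' e
      by_contra hne
      have hthird : ∀ w w' : Fin 3, w ≠ w' → ∃ x, x ≠ w ∧ x ≠ w' := by decide
      obtain ⟨x, hx, hx'⟩ := hthird w w' hne
      have a1 : line (ρ w') (σ w) = line (ρ w') (σ x) :=
        (hρline w' w x).2 (Or.inr ⟨hne, hx'⟩)
      rw [← e] at a1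
      have a2 := (hρline w w x).1 a1
      rcases a2 with a2 | ⟨a2, _⟩
      · exact hx a2.symm
      · exact a2 rfl
    rw [← hy ρ hρinj]
    show Tw (fun c => n c (place a σ)) = _
    congr 1
    funext c
    by_cases hc : ∃ w, ρ w = c
    · obtain ⟨w, rfl⟩ := hc
      rw [place_apply α hρinj, hnval _ σ hσ]
      show _ = J (fun t u => t = u ∨ (t ≠ w ∧ u ≠ w)) * H0⁻¹
      have : (fun t u => line (ρ w) (σ t) = line (ρ w) (σ u)) =
          (fun t u => t = u ∨ (t ≠ w ∧ u ≠ w)) := by
        funext t u
        exact propext (hρline w t u)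
      rw [this]
    · push Not at hc
      rw [place_apply_of α hc]
      apply hdisc c σ hσ
      intro t u e
      by_contra hne
      have hthird : ∀ t u : Fin 3, t ≠ u → ∃ w, t ≠ w ∧ u ≠ w := by decide
      obtain ⟨w, h1, h2⟩ := hthird t u hne
      have a1 := (hρline w t u).2 (Or.inr ⟨h1, h2⟩)
      exact hc w (class_unique (fun e' => hne (hσ e')) a1 e)

end plane

theorem exists_prime_for (N : ℕ) (hN : 4 ≤ N) : ∃ p : ℕ, p.Prime ∧ p + 1 < N ∧ N ≤ p * p := by
  rcases Nat.lt_or_ge N 6 with h | h
  · have : N = 4 ∨ N = 5 := by omega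
    rcases this with rfl | rfl
    · exact ⟨2, Nat.prime_two, by norm_num, by norm_num⟩
    · exact ⟨3, Nat.prime_three, by norm_num, by norm_num⟩
  · obtain ⟨p, hp, h1, h2⟩ := Nat.exists_prime_lt_and_le_two_mul ((N - 2) / 2) (by omega)
    refine ⟨p, hp, by omega, ?_⟩
    have h3 : 3 ≤ p := by omega
    have h4 : N ≤ 2 * p + 1 := by omega
    nlinarith

/-- Every finite index set is good. -/
theorem good_fin : ∀ N, Good (Fin N) := by
  intro N
  induction N using Nat.strong_induction_on with
  | _ N ih =>
    by_cases hN : N ≤ 3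
    · exact Good.of_card_le (by simpa using hN) good_fin3
    · obtain ⟨p, hp, h1, h2⟩ := exists_prime_for N (by omega)
      have : Fact p.Prime := ⟨hp⟩
      have : NeZero p := ⟨hp.ne_zero⟩
      have g1 : Good (ZMod p) := (ih p (by omega)).of_card_le (by simp [ZMod.card])
      have g2 : Good (Option (ZMod p)) := (ih (p + 1) h1).of_card_le (by simp [ZMod.card])
      exact (step g1 g2).of_card_le (by simpa [ZMod.card] using h2)

end Vale.Agent.P058
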