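import Vale.Agent.P058.Words

/-!
The group of a minimal left ideal of a compact right topological semigroup, and the extraction of
combinatorial configurations from ultrafilters.
-/

open Filter
open scoped Classical

noncomputable section

namespace Vale.Agent.P058

section minimal

variable {M : Type} [Semigroup M] [TopologicalSpace M] [CompactSpace M] [T2Space M]

theorem exists_min_left_ideal [Nonempty M] :
    ∃ L : Set M, IsClosed L ∧ L.Nonempty ∧ (∀ x, ∀ y ∈ L, x * y ∈ L) ∧
      ∀ L' : Set M, IsClosed L' → L'.Nonempty → (∀ x, ∀ y ∈ L', x * y ∈ L') → L' ⊆ L → L' = L := by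
  let S : Set (Set M) := {N | IsClosed N ∧ N.Nonempty ∧ ∀ x, ∀ y ∈ N, x * y ∈ N}
  rsuffices ⟨N, hN⟩ : ∃ N', Minimal (· ∈ S) N'
  · exact ⟨N, hN.prop.1, hN.prop.2.1, hN.prop.2.2, fun L' h1 h2 h3 h4 => hN.eq_of_subset ⟨h1, h2, h3⟩ h4⟩
  refine zorn_superset _ fun c hcs hc => ?_
  refine ⟨⋂₀ c, ⟨isClosed_sInter fun t ht => (hcs ht).1, ?_, fun x y hy => ?_⟩,
    fun s hs => Set.sInter_subset_of_mem hs⟩
  · obtain rfl | hcnemp := c.eq_empty_or_nonempty
    · rw [Set.sInter_empty]
      apply Set.univ_nonempty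
    have := hcnemp.coe_sort
    rw [Set.sInter_eq_iInter]
    exact IsCompact.nonempty_iInter_of_directed_nonempty_isCompact_isClosed
      ((↑) : c → Set M) (DirectedOn.directed_val (IsChain.directedOn hc.symm))
      (fun i => (hcs i.prop).2.1) (fun i => (hcs i.prop).1.isCompact) (fun i => (hcs i.prop).1)
  · rw [Set.mem_sInter]
    exact fun t ht => (hcs ht).2.2 x y (Set.mem_sInter.mp hy t ht)

/-- The group of a minimal left ideal. -/
theorem exists_group [Nonempty M] (hc : ∀ r : M, Continuous (· * r)) :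
    ∃ (Γ : Type) (_ : Group Γ) (em : Γ → M) (p : M), Function.Injective em ∧ em 1 = p ∧
      (∀ g h, em (g * h) = em g * em h) ∧ ∀ x : M, ∃ g, em g = p * x * p := by
  obtain ⟨L, hcl, hne, hid, hmin⟩ := exists_min_left_ideal (M := M)
  obtain ⟨p, hpL, hpp⟩ := exists_idempotent_in_compact_subsemigroup hc L hne hcl.isCompact
    (fun x _ y hy => hid x y hy)
  have hrange : ∀ y ∈ L, Set.range (· * y) = L := by
    intro y hy
    apply hmin
    · exact (isCompact_range (hc y)).isClosed
    · exact ⟨_, ⟨y, rfl⟩⟩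
    · rintro x _ ⟨z, rfl⟩
      exact ⟨x * z, mul_assoc _ _ _⟩
    · rintro _ ⟨z, rfl⟩
      exact hid z y hy
  have hright : ∀ y ∈ L, y * p = y := by
    intro y hy
    have : y ∈ Set.range (· * p) := by rw [hrange p hpL]; exact hy
    obtain ⟨x, rfl⟩ := this
    show x * p * p = x * p
    rw [mul_assoc, hpp]
  have hinv : ∀ g ∈ L, ∃ x, x * g = p := by
    intro g hg
    have : p ∈ Set.range (· * g) := by rw [hrange g hg]; exact hpL
    exact this
  let Γ : Type := {g : M // g ∈ L ∧ p * g = g}
  let _ : Mul Γ := ⟨fun g h => ⟨g.1 * h.1, hid _ _ h.2.1, by rw [← mul_assoc, g.2.2]⟩⟩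
  let _ : One Γ := ⟨⟨p, hpL, hpp⟩⟩
  let _ : Inv Γ := ⟨fun g => ⟨p * (hinv g.1 g.2.1).choose * p, hid _ _ hpL, by
    rw [← mul_assoc, ← mul_assoc, hpp]⟩⟩
  let grp : Group Γ := Group.ofLeftAxioms
    (fun a b c => Subtype.ext (mul_assoc a.1 b.1 c.1))
    (fun a => Subtype.ext a.2.2)
    (fun a => Subtype.ext (by
      show p * (hinv a.1 a.2.1).choose * p * a.1 = p
      have hx := (hinv a.1 a.2.1).choose_spec
      generalize (hinv a.1 a.2.1).choose = x at hx ⊢
      have e2 : p * a.1 = a.1 := a.2.2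
      rw [mul_assoc, e2, mul_assoc, hx, hpp]))
  refine ⟨Γ, grp, Subtype.val, p, Subtype.val_injective, rfl, fun g h => rfl, fun x => ?_⟩
  exact ⟨⟨p * x * p, hid _ _ hpL, by rw [← mul_assoc, ← mul_assoc, hpp]⟩, rfl⟩

end minimal

section extraction

variable {M T Γ : Type} [CommMonoid M] [Group Γ]

/-- Extraction of a configuration from a formal product. -/
theorem extraction (X : ℕ → T → M) (p : Ultrafilter M) (em : Γ → Ultrafilter M) (letter : T → Γ)
    (hmul : ∀ g h (A : Set M), (∀ᶠ x in (em (g * h) : Filter M), x ∈ A) ↔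
      ∀ᶠ m in (em g : Filter M), ∀ᶠ m' in (em h : Filter M), m * m' ∈ A)
    (hlet : ∀ t (A : Set M), (∀ᶠ x in (em (letter t) : Filter M), x ∈ A) ↔
      ∀ᶠ u in (p : Filter M), ∀ᶠ n in (hyperfilter ℕ : Filter ℕ), ∀ᶠ w in (p : Filter M),
        u * X n t * w ∈ A)
    {St ι : Type} [Finite St] [Fintype ι] (val : St → ι → T) {n : ι → ℕ} {f : (ι → Γ) → Γ}
    (hf : Clo n f) :
    ∀ (A : St → Set M), (∀ σ, ∀ᶠ x in (em (f (fun i => letter (val σ i))) : Filter M), x ∈ A σ) →
      ∀ B : ℕ, ∃ (R : M) (N : ι → Finset ℕ), (∀ i, (N i).card = n i) ∧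
        (∀ i j, i ≠ j → Disjoint (N i) (N j)) ∧ (∀ i, ∀ j ∈ N i, B < j) ∧
        ∀ σ, R * ∏ i, ∏ j ∈ N i, X j (val σ i) ∈ A σ := by
  induction hf with
  | const g =>
      intro A hA B
      have h1 : ∀ᶠ x in (em g : Filter M), ∀ σ, x ∈ A σ := eventually_all.2 hA
      obtain ⟨R, hR⟩ := h1.exists
      refine ⟨R, fun _ => ∅, fun _ => rfl, fun _ _ _ => Finset.disjoint_empty_left _, ?_, ?_⟩
      · intro i j hj
        simp at hj
      · intro σ
        simpa using hR σ
  | @proj i0 =>
      intro A hA B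
      have h0 : ∀ σ, ∀ᶠ u in (p : Filter M), ∀ᶠ n in (hyperfilter ℕ : Filter ℕ),
          ∀ᶠ w in (p : Filter M), u * X n (val σ i0) * w ∈ A σ :=
        fun σ => (hlet _ _).1 (hA σ)
      obtain ⟨u, hu⟩ := (eventually_all.2 h0).exists
      have hB : ∀ᶠ n in (hyperfilter ℕ : Filter ℕ), B < n :=
        Nat.hyperfilter_le_atTop (eventually_gt_atTop B)
      obtain ⟨n0, hn0, hn0'⟩ := ((eventually_all.2 hu).and hB).exists
      obtain ⟨w, hw⟩ := (eventually_all.2 hn0).exists
      refine ⟨u * w, fun i => if i = i0 then {n0} else ∅, ?_, ?_, ?_, ?_⟩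
      · intro i
        by_cases h : i = i0 <;> simp [h]
      · intro i j hij
        by_cases h : i = i0
        · have h' : j ≠ i0 := fun e => hij (h.trans e.symm)
          simp [h']
        · simp [h]
      · intro i j hj
        by_cases h : i = i0
        · simp only [h, if_true, Finset.mem_singleton] at hj
          rw [hj]; exact hn0'
        · simp [h] at hj
      · intro σ
        have e : ∏ i, ∏ j ∈ (if i = i0 then ({n0} : Finset ℕ) else ∅), X j (val σ i) =
            X n0 (val σ i0) := by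
          rw [Finset.prod_eq_single i0]
          · simp
          · intro b _ hb
            simp [hb]
          · intro h
            exact absurd (Finset.mem_univ i0) h
        rw [e]
        have := hw σ
        rwa [mul_right_comm] at this
  | @mul n n' f f' _ _ ih ih' =>
      intro A hA B
      have h1 : ∀ σ, ∀ᶠ x in (em (f (fun i => letter (val σ i))) : Filter M),
          x ∈ {m | ∀ᶠ m' in (em (f' (fun i => letter (val σ i))) : Filter M), m * m' ∈ A σ} :=
        fun σ => (hmul _ _ _).1 (hA σ)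
      obtain ⟨R1, N1, hc1, hd1, hb1, hv1⟩ := ih _ h1 B
      have hv1' : ∀ σ, ∀ᶠ m' in (em (f' (fun i => letter (val σ i))) : Filter M),
          m' ∈ {m' | (R1 * ∏ i, ∏ j ∈ N1 i, X j (val σ i)) * m' ∈ A σ} := hv1
      let B' : ℕ := B + ∑ i, (N1 i).sup id
      obtain ⟨R2, N2, hc2, hd2, hb2, hv2⟩ := ih' _ hv1' B'
      have hle : ∀ i, ∀ j ∈ N1 i, j ≤ B' := by
        intro i j hj
        have a1 : j ≤ (N1 i).sup id := Finset.le_sup (f := id) hj
        have a2 : (N1 i).sup id ≤ ∑ i, (N1 i).sup id :=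
          Finset.single_le_sum (f := fun i => (N1 i).sup id) (fun _ _ => Nat.zero_le _)
            (Finset.mem_univ i)
        omega
      have hdd : ∀ i i', Disjoint (N1 i) (N2 i') := by
        intro i i'
        rw [Finset.disjoint_left]
        intro j hj hj'
        have a1 := hle i j hj
        have a2 := hb2 i' j hj'
        omega
      refine ⟨R1 * R2, fun i => N1 i ∪ N2 i, ?_, ?_, ?_, ?_⟩
      · intro i
        rw [Finset.card_union_of_disjoint (hdd i i), hc1, hc2]
      · intro i j hij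
        rw [Finset.disjoint_union_left, Finset.disjoint_union_right, Finset.disjoint_union_right]
        exact ⟨⟨hd1 i j hij, hdd i j⟩, (hdd j i).symm, hd2 i j hij⟩
      · intro i j hj
        rcases Finset.mem_union.1 hj with h | h
        · exact hb1 i j h
        · have := hb2 i j h
          omega
      · intro σ
        have e : ∏ i, ∏ j ∈ N1 i ∪ N2 i, X j (val σ i) =
            (∏ i, ∏ j ∈ N1 i, X j (val σ i)) * ∏ i, ∏ j ∈ N2 i, X j (val σ i) := by
          rw [← Finset.prod_mul_distrib]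
          apply Finset.prod_congr rfl
          intro i _
          exact Finset.prod_union (hdd i i)
        rw [e, mul_mul_mul_comm]
        exact hv2 σ

end extraction

end Vale.Agent.P058
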