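import Mathlib

/-!
Formal products of constants and coordinates over a group, with site counts.
-/

open scoped Classical

noncomputable section

namespace Vale.Agent.P058

/-- `Clo n f`: the function `f` of a vector `v : ι → Γ` is a formal product of constants and
coordinates `v i`, in which the coordinate `i` occurs exactly `n i` times. -/
inductive Clo {ι Γ : Type} [Group Γ] : (ι → ℕ) → ((ι → Γ) → Γ) → Prop
  | const (g : Γ) : Clo (fun _ => 0) (fun _ => g)
  | proj (i : ι) : Clo (fun j => if j = i then 1 else 0) (fun v => v i)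
  | mul {n n' : ι → ℕ} {f f' : (ι → Γ) → Γ} :
      Clo n f → Clo n' f' → Clo (fun j => n j + n' j) (fun v => f v * f' v)

/-- A formal product in which at least one coordinate occurs. -/
def Wp {ι Γ : Type} [Group Γ] (f : (ι → Γ) → Γ) : Prop :=
  ∃ (n : ι → ℕ) (i : ι), 0 < n i ∧ Clo n f

variable {ι ι' Γ Γ' : Type} [Group Γ] [Group Γ']

theorem Clo.congr_deg {n n' : ι → ℕ} {f : (ι → Γ) → Γ} (h : Clo n f) (e : ∀ i, n i = n' i) :
    Clo n' f := by
  have : n = n' := funext e
  exact this ▸ h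

theorem Wp.of_proj (i : ι) : Wp (fun v : ι → Γ => v i) :=
  ⟨_, i, by simp, Clo.proj i⟩

theorem Wp.mul {f g : (ι → Γ) → Γ} (hf : Wp f) (hg : Wp g) : Wp (fun v => f v * g v) := by
  obtain ⟨n, i, hi, h⟩ := hf
  obtain ⟨n', _, _, h'⟩ := hg
  exact ⟨_, i, lt_of_lt_of_le hi (Nat.le_add_right _ _), Clo.mul h h'⟩

theorem Wp.const_mul {f : (ι → Γ) → Γ} (c : Γ) (hf : Wp f) : Wp (fun v => c * f v) := by
  obtain ⟨n, i, hi, h⟩ := hf
  exact ⟨_, i, lt_of_lt_of_le hi (Nat.le_add_left _ _), Clo.mul (Clo.const c) h⟩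

theorem Wp.mul_const {f : (ι → Γ) → Γ} (c : Γ) (hf : Wp f) : Wp (fun v => f v * c) := by
  obtain ⟨n, i, hi, h⟩ := hf
  exact ⟨_, i, lt_of_lt_of_le hi (Nat.le_add_right _ _), Clo.mul h (Clo.const c)⟩

/-- Relabelling coordinates. -/
theorem Clo.perm (g : ι ≃ ι) {n : ι → ℕ} {f : (ι → Γ) → Γ} (h : Clo n f) :
    Clo (fun i => n (g.symm i)) (fun v => f (v ∘ g)) := by
  induction h with
  | const c => exact Clo.const c
  | proj i =>
      refine (Clo.proj (g i)).congr_deg ?_
      intro j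
      by_cases hj : j = g i
      · subst hj; simp
      · have : g.symm j ≠ i := fun e => hj (by rw [← e]; simp)
        simp [hj, this]
  | mul _ _ ih ih' => exact Clo.mul ih ih'

theorem Wp.perm (g : ι ≃ ι) {f : (ι → Γ) → Γ} (h : Wp f) : Wp (fun v => f (v ∘ g)) := by
  obtain ⟨n, i, hi, h⟩ := h
  exact ⟨_, g i, by simpa using hi, h.perm g⟩

/-- Substituting formal products for the coordinates of a formal product. -/
theorem Clo.subst [Fintype ι'] {u : ι' → (ι → Γ) → Γ} {m : ι' → ι → ℕ}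
    (hu : ∀ j, Clo (m j) (u j)) {n : ι' → ℕ} {f : (ι' → Γ) → Γ} (h : Clo n f) :
    Clo (fun i => ∑ j, n j * m j i) (fun v => f (fun j => u j v)) := by
  induction h with
  | const c =>
      refine (Clo.const c).congr_deg ?_
      intro i; simp
  | proj j =>
      refine (hu j).congr_deg ?_
      intro i
      rw [Finset.sum_eq_single j]
      · simp
      · intro b _ hb; simp [hb]
      · intro hj; exact absurd (Finset.mem_univ j) hj
  | mul _ _ ih ih' =>
      refine (Clo.mul ih ih').congr_deg ?_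
      intro i
      simp only [add_mul, Finset.sum_add_distrib]

theorem Wp.subst [Fintype ι'] {u : ι' → (ι → Γ) → Γ} (hu : ∀ j, Wp (u j))
    {f : (ι' → Γ) → Γ} (h : Wp f) : Wp (fun v => f (fun j => u j v)) := by
  choose m i hi hc using hu
  obtain ⟨n, j, hj, h⟩ := h
  refine ⟨_, i j, ?_, Clo.subst hc h⟩
  have : 0 < n j * m j (i j) := Nat.mul_pos hj (hi j)
  exact lt_of_lt_of_le this (Finset.single_le_sum (f := fun j' => n j' * m j' (i j))
    (fun _ _ => Nat.zero_le _) (Finset.mem_univ j))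

/-- Transfer of a formal product along a homomorphism. -/
theorem Clo.map_hom (φ : Γ →* Γ') {n : ι → ℕ} {f : (ι → Γ) → Γ} (h : Clo n f) :
    ∃ f' : (ι → Γ') → Γ', Clo n f' ∧ ∀ v : ι → Γ, f' (fun i => φ (v i)) = φ (f v) := by
  induction h with
  | const c => exact ⟨_, Clo.const (φ c), fun _ => rfl⟩
  | proj i => exact ⟨_, Clo.proj i, fun _ => rfl⟩
  | mul _ _ ih ih' =>
      obtain ⟨g, hg, e⟩ := ih
      obtain ⟨g', hg', e'⟩ := ih'
      exact ⟨_, Clo.mul hg hg', fun v => by simp [e, e']⟩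

end Vale.Agent.P058
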