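import Vale.Agent.P058.Recursion
import Vale.Agent.P058.Ultra
import Vale.Agent.P058.Defs

/-!
From formal products to monochromatic congruent copies.
-/

open Filter
open scoped Classical

noncomputable section

namespace Vale.Agent.P058

/-- Finitely supported real sequences, written multiplicatively. -/
abbrev Sp : Type := Multiplicative (ℕ →₀ ℝ)

/-- The sequence with entry `t` at position `n`. -/
def lett (n : ℕ) (t : ℝ) : Sp := Multiplicative.ofAdd (Finsupp.single n t)

attribute [local instance] Ultrafilter.mul Ultrafilter.semigroup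

theorem exists_package : ∃ (Γ : Type) (_ : Group Γ) (em : Γ → Ultrafilter Sp)
    (p : Ultrafilter Sp) (letter : ℝ → Γ), letter 0 = 1 ∧
    (∀ g h (A : Set Sp), (∀ᶠ x in (em (g * h) : Filter Sp), x ∈ A) ↔
      ∀ᶠ m in (em g : Filter Sp), ∀ᶠ m' in (em h : Filter Sp), m * m' ∈ A) ∧
    (∀ t (A : Set Sp), (∀ᶠ x in (em (letter t) : Filter Sp), x ∈ A) ↔
      ∀ᶠ u in (p : Filter Sp), ∀ᶠ n in (hyperfilter ℕ : Filter ℕ), ∀ᶠ w in (p : Filter Sp),
        u * lett n t * w ∈ A) := by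
  obtain ⟨Γ, grp, em, p, hinj, h1, hmul, hx⟩ := exists_group (M := Ultrafilter Sp)
    Ultrafilter.continuous_mul_left
  have hpp : p * p = p := by
    rw [← h1, ← hmul, mul_one]
  let xh : ℝ → Ultrafilter Sp := fun t => Ultrafilter.map (fun n => lett n t) (hyperfilter ℕ)
  choose letter hlet using fun t => hx (xh t)
  have hlm : ∀ t (A : Set Sp), (∀ᶠ x in (em (letter t) : Filter Sp), x ∈ A) ↔
      ∀ᶠ u in (p : Filter Sp), ∀ᶠ n in (hyperfilter ℕ : Filter ℕ), ∀ᶠ w in (p : Filter Sp),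
        u * lett n t * w ∈ A := by
    intro t A
    rw [hlet t]
    exact Iff.rfl
  refine ⟨Γ, grp, em, p, letter, ?_, ?_, hlm⟩
  · apply hinj
    rw [h1]
    apply Ultrafilter.coe_injective
    apply Filter.ext
    intro A
    show (∀ᶠ x in (em (letter 0) : Filter Sp), x ∈ A) ↔ (∀ᶠ x in (p : Filter Sp), x ∈ A)
    rw [hlm]
    have e : ∀ (n : ℕ) (u w : Sp), u * lett n 0 * w = u * w := by
      intro n u w
      simp [lett]
    simp only [e]
    have hc : ∀ u : Sp, (∀ᶠ _ in (hyperfilter ℕ : Filter ℕ), ∀ᶠ w in (p : Filter Sp), u * w ∈ A) ↔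
        ∀ᶠ w in (p : Filter Sp), u * w ∈ A := fun u => eventually_const
    simp only [hc]
    conv_rhs => rw [← hpp]
    exact Iff.rfl
  · intro g h A
    rw [hmul]
    exact Iff.rfl

/-- Coordinates of a point. -/
def projD (D : ℕ) (x : Sp) : EuclideanSpace ℝ (Fin D) :=
  WithLp.toLp 2 (fun j : Fin D => (Multiplicative.toAdd x) (j : ℕ))

theorem coord_of {ι : Type} [Fintype ι] (R : Sp) (N : ι → Finset ℕ) (w : ι → ℝ) (l : ℕ) :
    (Multiplicative.toAdd (R * ∏ i, ∏ j ∈ N i, lett j (w i))) l =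
      (Multiplicative.toAdd R) l + ∑ i, if l ∈ N i then w i else 0 := by
  rw [toAdd_mul, Finsupp.add_apply]
  congr 1
  rw [toAdd_prod, Finsupp.finsetSum_apply]
  apply Finset.sum_congr rfl
  intro i _
  rw [toAdd_prod, Finsupp.finsetSum_apply]
  show ∑ j ∈ N i, (Finsupp.single j (w i) : ℕ →₀ ℝ) l = _
  simp only [Finsupp.single_apply]
  rw [Finset.sum_ite_eq']

theorem block_sq {ι : Type} [Fintype ι] (N : ι → Finset ℕ)
    (hd : ∀ i j, i ≠ j → Disjoint (N i) (N j)) (w : ι → ℝ) (l : ℕ) :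
    (∑ i, if l ∈ N i then w i else 0) ^ 2 = ∑ i, if l ∈ N i then (w i) ^ 2 else 0 := by
  by_cases h : ∃ i0, l ∈ N i0
  · obtain ⟨i0, hi0⟩ := h
    have hother : ∀ i, i ≠ i0 → l ∉ N i := fun i hi hl =>
      Finset.disjoint_left.1 (hd i i0 hi) hl hi0
    rw [Finset.sum_eq_single i0, Finset.sum_eq_single i0]
    · simp [hi0]
    · intro i _ hi
      simp [hother i hi]
    · intro h; exact absurd (Finset.mem_univ i0) h
    · intro i _ hi
      simp [hother i hi]
    · intro h; exact absurd (Finset.mem_univ i0) h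
  · push Not at h
    simp [h]

theorem sum_block_sq {ι : Type} [Fintype ι] (N : ι → Finset ℕ)
    (hd : ∀ i j, i ≠ j → Disjoint (N i) (N j)) (D : ℕ) (hD : ∀ i, ∀ j ∈ N i, j < D) (w : ι → ℝ) :
    ∑ l : Fin D, (∑ i, if (l : ℕ) ∈ N i then w i else 0) ^ 2 = ∑ i, ((N i).card : ℝ) * (w i) ^ 2 := by
  simp only [block_sq N hd]
  rw [Finset.sum_comm]
  apply Finset.sum_congr rfl
  intro i _
  rw [Fin.sum_univ_eq_sum_range (fun l => if l ∈ N i then (w i) ^ 2 else 0) D, Finset.sum_ite_mem]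
  have : Finset.range D ∩ N i = N i := by
    apply Finset.inter_eq_right.2
    intro j hj
    exact Finset.mem_range.2 (hD i j hj)
  rw [this, Finset.sum_const, nsmul_eq_mul]

theorem emb_dist {k : ℕ} (R : Sp) (N : Fin k → Finset ℕ) (m : ℕ) (hm : 0 < m)
    (hcard : ∀ i, (N i).card = m) (hd : ∀ i j, i ≠ j → Disjoint (N i) (N j)) (D : ℕ)
    (hD : ∀ i, ∀ j ∈ N i, j < D) (x y : EuclideanSpace ℝ (Fin k)) :
    dist (projD D (R * ∏ i, ∏ j ∈ N i, lett j (x i / Real.sqrt m)))
      (projD D (R * ∏ i, ∏ j ∈ N i, lett j (y i / Real.sqrt m))) = dist x y := by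
  rw [EuclideanSpace.dist_eq, EuclideanSpace.dist_eq]
  congr 1
  have hm' : (m : ℝ) ≠ 0 := by positivity
  have hs : Real.sqrt m ^ 2 = m := Real.sq_sqrt (by positivity)
  have hs0 : Real.sqrt m ≠ 0 := by positivity
  have e1 : ∀ j : Fin D, dist ((projD D (R * ∏ i, ∏ j ∈ N i, lett j (x i / Real.sqrt m))) j)
      ((projD D (R * ∏ i, ∏ j ∈ N i, lett j (y i / Real.sqrt m))) j) ^ 2 =
      (∑ i, if (j : ℕ) ∈ N i then (x i - y i) / Real.sqrt m else 0) ^ 2 := by
    intro j
    rw [Real.dist_eq, sq_abs]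
    show ((Multiplicative.toAdd (R * ∏ i, ∏ j ∈ N i, lett j (x i / Real.sqrt m))) (j : ℕ) -
      (Multiplicative.toAdd (R * ∏ i, ∏ j ∈ N i, lett j (y i / Real.sqrt m))) (j : ℕ)) ^ 2 = _
    rw [coord_of, coord_of]
    congr 1
    rw [add_sub_add_left_eq_sub, ← Finset.sum_sub_distrib]
    apply Finset.sum_congr rfl
    intro i _
    by_cases h : (j : ℕ) ∈ N i
    · simp only [h, if_true]
      ring
    · simp [h]
  simp only [e1]
  rw [sum_block_sq N hd D hD]
  apply Finset.sum_congr rfl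
  intro i _
  rw [hcard, Real.dist_eq, sq_abs, div_pow, hs]
  field_simp

/-- The main theorem. -/
theorem arrangements_ramsey (k : ℕ) (a : Fin 3 → ℝ) : IsRamsey (arrangements k a) := by
  intro r hr
  obtain ⟨Γ, _, em, p, letter, h0, hmul, hlet⟩ := exists_package
  obtain ⟨m, f0, y0, hm, hc0, hy0⟩ := good_fin k (FreeGroup (Fin 3)) FreeGroup.of
  let s : ℝ := Real.sqrt m
  have hs : 0 < s := by positivity
  let φ : FreeGroup (Fin 3) →* Γ := FreeGroup.lift (fun t => letter (a t / s))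
  obtain ⟨f, hc, hf⟩ := Clo.map_hom φ hc0
  let St : Type := {σ : Fin 3 → Fin k // Function.Injective σ}
  let val : St → Fin k → ℝ := fun σ i => (Function.extend σ.1 a 0 i) / s
  have hval : ∀ σ : St, f (fun i => letter (val σ i)) = φ y0 := by
    intro σ
    have e : (fun i => letter (val σ i)) = fun i => φ (place FreeGroup.of σ.1 i) := by
      funext i
      by_cases h : ∃ t, σ.1 t = i
      · obtain ⟨t, rfl⟩ := h
        rw [place_apply _ σ.2]
        show letter (Function.extend σ.1 a 0 (σ.1 t) / s) = φ (FreeGroup.of t)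
        rw [σ.2.extend_apply]
        simp [φ]
      · have h' : ∀ t, σ.1 t ≠ i := fun t ht => h ⟨t, ht⟩
        rw [place_apply_of _ h']
        show letter (Function.extend σ.1 a 0 i / s) = φ 1
        rw [Function.extend_apply' _ _ _ h]
        simp [h0]
    rw [e, hf, hy0 _ σ.2]
  by_contra hno
  have hno' : ∀ D : ℕ, ∃ c : EuclideanSpace ℝ (Fin (D + 1)) → Fin r,
      ∀ g : EuclideanSpace ℝ (Fin k) → EuclideanSpace ℝ (Fin (D + 1)),
        (∀ x ∈ arrangements k a, ∀ y ∈ arrangements k a, dist (g x) (g y) = dist x y) →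
        ∀ col : Fin r, ∃ x ∈ arrangements k a, c (g x) ≠ col := by
    intro D
    by_contra h
    push Not at h
    exact hno ⟨D + 1, Nat.succ_pos _, h⟩
  choose c hc' using hno'
  have hlim : ∀ x : Sp, ∃ col : Fin r,
      ∀ᶠ D in (hyperfilter ℕ : Filter ℕ), c D (projD (D + 1) x) = col := by
    intro x
    obtain ⟨col, hcol⟩ :=
      (Ultrafilter.map (fun D => c D (projD (D + 1) x)) (hyperfilter ℕ)).eq_pure_of_finite
    refine ⟨col, ?_⟩
    have h1 : ({col} : Set (Fin r)) ∈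
        Ultrafilter.map (fun D => c D (projD (D + 1) x)) (hyperfilter ℕ) := by
      rw [hcol]
      simp
    exact h1
  choose lim hlim using hlim
  obtain ⟨col, hcol⟩ := (Ultrafilter.map lim (em (φ y0))).eq_pure_of_finite
  have hcolA : ∀ᶠ x in (em (φ y0) : Filter Sp), x ∈ {x | lim x = col} := by
    have h1 : ({col} : Set (Fin r)) ∈ Ultrafilter.map lim (em (φ y0)) := by
      rw [hcol]
      simp
    exact h1
  obtain ⟨R, N, hcard, hdis, -, hmem⟩ := extraction lett p em letter hmul hlet val hc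
    (fun _ => {x | lim x = col}) (fun σ => by rw [hval]; exact hcolA) 0
  have hall : ∀ᶠ D in (hyperfilter ℕ : Filter ℕ), ∀ σ : St,
      c D (projD (D + 1) (R * ∏ i, ∏ j ∈ N i, lett j (val σ i))) = col := by
    apply eventually_all.2
    intro σ
    have h1 := hlim (R * ∏ i, ∏ j ∈ N i, lett j (val σ i))
    have h2 : lim (R * ∏ i, ∏ j ∈ N i, lett j (val σ i)) = col := hmem σ
    rwa [h2] at h1
  have hbound : ∀ᶠ D in (hyperfilter ℕ : Filter ℕ), ∑ i, (N i).sup id ≤ D :=
    Nat.hyperfilter_le_atTop (eventually_ge_atTop _)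
  obtain ⟨D, hD1, hD2⟩ := (hall.and hbound).exists
  have hD3 : ∀ i, ∀ j ∈ N i, j < D + 1 := by
    intro i j hj
    have a1 : j ≤ (N i).sup id := Finset.le_sup (f := id) hj
    have a2 : (N i).sup id ≤ ∑ i, (N i).sup id :=
      Finset.single_le_sum (f := fun i => (N i).sup id) (fun _ _ => Nat.zero_le _)
        (Finset.mem_univ i)
    omega
  let emb : EuclideanSpace ℝ (Fin k) → EuclideanSpace ℝ (Fin (D + 1)) := fun x =>
    projD (D + 1) (R * ∏ i, ∏ j ∈ N i, lett j (x i / s))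
  obtain ⟨x, hx, hne⟩ := hc' D emb
    (fun x _ y _ => emb_dist R N m hm hcard hdis (D + 1) hD3 x y) col
  obtain ⟨σ, hσ, h1, h2⟩ := hx
  apply hne
  have e : ∀ i, x i / s = val ⟨σ, hσ⟩ i := by
    intro i
    show x i / s = Function.extend σ a 0 i / s
    congr 1
    by_cases h : ∃ t, σ t = i
    · obtain ⟨t, rfl⟩ := h
      rw [hσ.extend_apply, h1]
    · rw [Function.extend_apply' _ _ _ h, h2 i (fun t ht => h ⟨t, ht⟩)]
      rfl
  show c D (projD (D + 1) (R * ∏ i, ∏ j ∈ N i, lett j (x i / s))) = col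
  simp only [e]
  exact hD1 ⟨σ, hσ⟩

end Vale.Agent.P058
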